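import Vale.Agent.P011.H95.Odd.Blk

/-!
**Blocks, second part.** The moves with a central scalar, the exchange for two pairs.
-/

open Matrix

set_option linter.unusedSectionVars false

namespace Vale.Agent.P011.H95.Odd

section scalar

variable {K : Type*} [Field K] [StarRing K] {D : Type*} [Ring D] [StarRing D] [Algebra K D]
  [StarModule K D] {m : Type*} [Fintype m] [DecidableEq m] {c : Type*} [Fintype c]
  [DecidableEq c] {r ri a ai z zi : Matrix m m D} {y1 y2 : Matrix m c D} {ν μ : K}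

theorem uu_smul (h : μ * (star ν * ν) = 1) (x : Matrix m c D) (ai : Matrix m m D) :
    uu (ν • x) (μ • ai) = uu x ai := by
  simp only [uu, conjTranspose_smul, Matrix.smul_mul, Matrix.mul_smul, smul_smul]
  have h1 : ν * (μ * star ν) = 1 := by rw [← h]; ring
  rw [h1, one_smul]

/-- Scaling of the second column. -/
theorem AtB.scale (h : AtB r y1 y2 a) (ν : K) : AtB ((ν * star ν) • r) y1 (ν • y2) a := by
  refine ⟨h.one, ?_⟩
  have e : star (ν * star ν) = ν * star ν := by rw [star_mul, star_star]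
  rw [conjTranspose_smul, conjTranspose_smul, e, Matrix.mul_smul, Matrix.smul_mul,
    Matrix.smul_mul, Matrix.mul_smul, ← smul_add, smul_smul, h.two]

theorem AtB.unscale (h : AtB ((ν * star ν) • r) y1 (ν • y2) a) (hν : ν ≠ 0) :
    AtB r y1 y2 a := by
  have hν' : star ν ≠ 0 := by simpa using hν
  have h1 := h.scale (ν⁻¹)
  rw [smul_smul, smul_smul, star_inv₀] at h1
  have e1 : ν⁻¹ * (star ν)⁻¹ * (ν * star ν) = 1 := by field_simp
  have e2 : ν⁻¹ * ν = 1 := by field_simp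
  rwa [e1, e2, one_smul, one_smul] at h1

/-- The scalar of the pair moved by `[[1, ν], [ν⋆ rᴴ, 1]]`. -/
def mzM (ν : K) (r : Matrix m m D) (y1 y2 : Matrix m c D) (a : Matrix m m D) : Matrix m m D :=
  a + (ν * star ν) • (rᴴ * aᴴ) + ν • (y2 * y1ᴴ)

theorem AtB.moveM (h : AtB r y1 y2 a) (ν : K) :
    AtB r (y1 + ν • y2) (star ν • (rᴴ * y1) + y2) (mzM ν r y1 y2 a) := by
  have h1 := h.one
  have h2 := h.two
  have e : star (ν * star ν) = ν * star ν := by rw [star_mul, star_star]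
  refine ⟨?_, ?_⟩
  · have : mzM ν r y1 y2 a + (mzM ν r y1 y2 a)ᴴ =
        (a + aᴴ) + (ν * star ν) • (a * r + rᴴ * aᴴ) + ν • (y2 * y1ᴴ) +
          star ν • (y1 * y2ᴴ) := by
      simp only [mzM, conjTranspose_add, conjTranspose_mul, conjTranspose_conjTranspose,
        conjTranspose_smul, e, smul_add]
      abel
    rw [this, h1, h2]
    simp only [conjTranspose_add, conjTranspose_smul, Matrix.mul_add, Matrix.add_mul,
      Matrix.smul_mul, Matrix.mul_smul, smul_add, smul_smul]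
    rw [mul_comm (star ν) ν]
    abel
  · have : mzM ν r y1 y2 a * r + rᴴ * (mzM ν r y1 y2 a)ᴴ =
        (ν * star ν) • (rᴴ * (a + aᴴ) * r) + (a * r + rᴴ * aᴴ) + ν • (y2 * y1ᴴ * r) +
          star ν • (rᴴ * y1 * y2ᴴ) := by
      simp only [mzM, conjTranspose_add, conjTranspose_mul, conjTranspose_conjTranspose,
        conjTranspose_smul, e, Matrix.mul_add, Matrix.add_mul, Matrix.mul_assoc,
        Matrix.smul_mul, Matrix.mul_smul, smul_add]
      abel
    rw [this, h1, h2]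
    simp only [conjTranspose_add, conjTranspose_mul, conjTranspose_conjTranspose,
      conjTranspose_smul, star_star, Matrix.mul_add, Matrix.add_mul, Matrix.mul_assoc,
      Matrix.smul_mul, Matrix.mul_smul, smul_add, smul_smul]
    abel

/-- **The first identity for the matrix `[[1, ν], [ν⋆ rᴴ, 1]]`.** -/
theorem uu_moveM (h : AtB r y1 y2 a) (hr : Inv2 r ri) (ha : Inv2 a ai) (ν : K)
    (hz : Inv2 (mzM ν r y1 y2 a) zi) :
    uu (star ν • (rᴴ * y1) + y2) (ri * zi) * uu y1 ai =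
      uu y2 (ri * ai) * uu (y1 + ν • y2) zi := by
  by_cases hν : ν = 0
  · subst hν
    have e1 : mzM (0 : K) r y1 y2 a = a := by simp [mzM]
    rw [e1] at hz
    rw [ha.unique hz]
    simp
  have hν' : star ν ≠ 0 := by simpa using hν
  have e : star (ν * star ν) = ν * star ν := by rw [star_mul, star_star]
  have hN : (ν * star ν) ≠ 0 := mul_ne_zero hν hν'
  have hr' : Inv2 ((ν * star ν) • r) ((ν * star ν)⁻¹ • ri) := by
    constructor
    · rw [Matrix.smul_mul, Matrix.mul_smul, smul_smul, mul_inv_cancel₀ hN, one_smul, hr.mul]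
    · rw [Matrix.smul_mul, Matrix.mul_smul, smul_smul, inv_mul_cancel₀ hN, one_smul, hr.inv]
  have hzz : mzB ((ν * star ν) • r) y1 (ν • y2) a = mzM ν r y1 y2 a := by
    simp only [mzB, mzM, conjTranspose_smul, e, Matrix.smul_mul]
  have hz' : Inv2 (mzB ((ν * star ν) • r) y1 (ν • y2) a) zi := by rwa [hzz]
  have key := uu_moveB (h.scale ν) hr' ha hz'
  have hx : ((ν * star ν) • r)ᴴ * y1 + ν • y2 = ν • (star ν • (rᴴ * y1) + y2) := by
    rw [conjTranspose_smul, e, Matrix.smul_mul, smul_add, smul_smul]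
  have hμ : (ν * star ν)⁻¹ * (star ν * ν) = 1 := by
    rw [mul_comm (star ν) ν, inv_mul_cancel₀ hN]
  rw [hx, Matrix.smul_mul, Matrix.smul_mul, uu_smul hμ, uu_smul hμ] at key
  exact key

end scalar

section exchange

variable {D : Type*} [Ring D] [StarRing D] {m m' : Type*} [Fintype m] [DecidableEq m]
  [Fintype m'] [DecidableEq m'] {c : Type*} [Fintype c] [DecidableEq c]
  {r ri p pi : Matrix m m D} {s si t ti : Matrix m' m' D} {q : Matrix m m' D}
  {v1 v2 : Matrix m c D} {w1 w2 : Matrix m' c D}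

/-- The mixed equation at the first index. -/
theorem mixed_one (q : Matrix m m' D) (v1 : Matrix m c D) (w1 : Matrix m' c D) :
    q + (w1 * v1ᴴ - qᴴ)ᴴ = v1 * w1ᴴ := by
  simp only [conjTranspose_sub, conjTranspose_mul, conjTranspose_conjTranspose]
  abel

/-- The mixed equation at the second index. -/
theorem mixed_two (hq : q * s - rᴴ * q = v2 * w2ᴴ - rᴴ * (v1 * w1ᴴ)) :
    q * s + ((w1 * v1ᴴ - qᴴ) * r)ᴴ = v2 * w2ᴴ := by
  have h3 : q * s = rᴴ * q + (v2 * w2ᴴ - rᴴ * (v1 * w1ᴴ)) := by rw [← hq]; abel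
  rw [h3, conjTranspose_mul]
  simp only [conjTranspose_sub, conjTranspose_mul, conjTranspose_conjTranspose, Matrix.mul_sub]
  abel

/-- The pair `w` changed by the pair `v`. -/
theorem AtB.exch (hv : AtB r v1 v2 p) (hw : AtB s w1 w2 t) (hr : Inv2 r ri) (hp : Inv2 p pi)
    (hq : q * s - rᴴ * q = v2 * w2ᴴ - rᴴ * (v1 * w1ᴴ)) :
    AtB s (w1 - (w1 * v1ᴴ - qᴴ) * pi * v1) (w2 - (w1 * v1ᴴ - qᴴ) * pi * v2)
      (t - (w1 * v1ᴴ - qᴴ) * pi * q) := by
  have h2 := schurB (p := p * r) (t := t * s) (q := q * s) (s := (w1 * v1ᴴ - qᴴ) * r)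
    (v := v2) (w := w2) (pi := ri * pi) hv.two' hw.two' (mixed_two hq) (hp.mul' hr)
  set g := w1 * v1ᴴ - qᴴ with hg
  refine ⟨schurB hv.one hw.one (mixed_one q v1 w1) hp, ?_⟩
  have e0 : g * r * (ri * pi) = g * pi := by
    rw [← Matrix.mul_assoc, hr.cancel_right]
  have e1 : t * s - g * r * (ri * pi) * (q * s) = (t - g * pi * q) * s := by
    rw [e0, Matrix.sub_mul t (g * pi * q) s, Matrix.mul_assoc (g * pi) q s]
  rw [e1, e0] at h2
  rw [← h2, conjTranspose_mul]

/-- The mixed equation with the two pairs exchanged. -/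
theorem mixed_symm (hq : q * s - rᴴ * q = v2 * w2ᴴ - rᴴ * (v1 * w1ᴴ)) :
    (w1 * v1ᴴ - qᴴ) * r - sᴴ * (w1 * v1ᴴ - qᴴ) = w2 * v2ᴴ - sᴴ * (w1 * v1ᴴ) ∧
      v1 * w1ᴴ - (w1 * v1ᴴ - qᴴ)ᴴ = q := by
  constructor
  · have h := congrArg conjTranspose (mixed_two hq)
    simp only [conjTranspose_add, conjTranspose_mul, conjTranspose_conjTranspose,
      conjTranspose_sub] at h
    rw [← h, Matrix.mul_sub]
    simp only [Matrix.sub_mul, Matrix.mul_assoc]
    abel
  · simp only [conjTranspose_sub, conjTranspose_mul, conjTranspose_conjTranspose]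
    abel

/-- The pair `v` changed by the pair `w`. -/
theorem AtB.exch' (hv : AtB r v1 v2 p) (hw : AtB s w1 w2 t) (hs : Inv2 s si) (ht : Inv2 t ti)
    (hq : q * s - rᴴ * q = v2 * w2ᴴ - rᴴ * (v1 * w1ᴴ)) :
    AtB r (v1 - q * ti * w1) (v2 - q * ti * w2) (p - q * ti * (w1 * v1ᴴ - qᴴ)) := by
  obtain ⟨h1, h2⟩ := mixed_symm hq
  have := AtB.exch (q := w1 * v1ᴴ - qᴴ) hw hv hs ht h1
  rwa [h2] at this

/-- **The exchange, first index.** -/
theorem uu_exch_one {Si : Matrix m' m' D} {Ri : Matrix m m D} (hv : AtB r v1 v2 p)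
    (hw : AtB s w1 w2 t) (hp : Inv2 p pi) (ht : Inv2 t ti)
    (hS : Inv2 (t - (w1 * v1ᴴ - qᴴ) * pi * q) Si)
    (hR : Inv2 (p - q * ti * (w1 * v1ᴴ - qᴴ)) Ri) :
    uu v1 pi * uu (w1 - (w1 * v1ᴴ - qᴴ) * pi * v1) Si = uu w1 ti * uu (v1 - q * ti * w1) Ri :=
  uu_exchangeB hv.one hw.one (mixed_one q v1 w1) hp ht hS hR

/-- **The exchange, second index.** -/
theorem uu_exch_two {Si : Matrix m' m' D} {Ri : Matrix m m D} (hv : AtB r v1 v2 p)
    (hw : AtB s w1 w2 t) (hr : Inv2 r ri) (hs : Inv2 s si) (hp : Inv2 p pi) (ht : Inv2 t ti)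
    (hq : q * s - rᴴ * q = v2 * w2ᴴ - rᴴ * (v1 * w1ᴴ))
    (hS : Inv2 (t - (w1 * v1ᴴ - qᴴ) * pi * q) Si)
    (hR : Inv2 (p - q * ti * (w1 * v1ᴴ - qᴴ)) Ri) :
    uu v2 (ri * pi) * uu (w2 - (w1 * v1ᴴ - qᴴ) * pi * v2) (si * Si) =
      uu w2 (si * ti) * uu (v2 - q * ti * w2) (ri * Ri) := by
  have m2 := mixed_two hq
  set g := w1 * v1ᴴ - qᴴ with hg
  have e0 : g * r * (ri * pi) = g * pi := by
    rw [← Matrix.mul_assoc, hr.cancel_right]
  have e0' : q * s * (si * ti) = q * ti := by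
    rw [← Matrix.mul_assoc, hs.cancel_right]
  have e1 : t * s - g * r * (ri * pi) * (q * s) = (t - g * pi * q) * s := by
    rw [e0, Matrix.sub_mul t (g * pi * q) s, Matrix.mul_assoc (g * pi) q s]
  have e2 : p * r - q * s * (si * ti) * (g * r) = (p - q * ti * g) * r := by
    rw [e0', Matrix.sub_mul p (q * ti * g) r, Matrix.mul_assoc (q * ti) g r]
  have hS' : Inv2 (t * s - g * r * (ri * pi) * (q * s)) (si * Si) := by
    rw [e1]; exact hS.mul' hs
  have hR' : Inv2 (p * r - q * s * (si * ti) * (g * r)) (ri * Ri) := by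
    rw [e2]; exact hR.mul' hr
  have key := uu_exchangeB (p := p * r) (t := t * s) (q := q * s) (s := g * r) (v := v2)
    (w := w2) hv.two' hw.two' m2 (hp.mul' hr) (ht.mul' hs) hS' hR'
  rwa [e0, e0'] at key

end exchange

end Vale.Agent.P011.H95.Odd
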