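import Vale.Agent.P011.H95.Odd.Exch2
import Vale.Agent.P011.H415.Red

/-!
**The composite multiplier is a scalar.**
-/

open Matrix Polynomial Filter Topology
open Vale.Agent.P011.H439

set_option linter.unusedSectionVars false

namespace Vale.Agent.P011.H95.Odd

open Vale.Agent.P011.H415 (vv red)

section alg

variable {K D : Type*} [Field K] [StarRing K] [DivisionRing D] [StarRing D] [Algebra K D]
  [StarModule K D] [TopologicalSpace D] {m b : ℕ} {x0 : K}

/-- The coefficients of `X - x₀`. -/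
def lin (x0 : K) : Fin 1 → K := fun _ => -x0

theorem Pc_lin (x0 : K) : Pc (lin x0) = X - C x0 := by
  simp [Pc, lin, sub_eq_add_neg]

theorem sc_lin (x0 : K) : sc (lin x0) = lin (star x0) := by
  funext i; simp [sc, lin]

/-- The scalar. -/
noncomputable def kap (x0 : K) (c : Fin (m + 1) → K) : K :=
  -(star (H415.uu x0 c) / vv x0 c) * (H415.uu x0 c - vv x0 c) / star (H415.uu x0 c - vv x0 c)

theorem kap_norm {c : Fin (m + 1) → K} (hu : H415.uu x0 c ≠ 0) (hv : vv x0 c ≠ 0)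
    (huv : H415.uu x0 c ≠ vv x0 c) :
    kap x0 c * star (kap x0 c) =
      (H415.uu x0 c * star (H415.uu x0 c)) / (vv x0 c * star (vv x0 c)) := by
  have h1 : H415.uu x0 c - vv x0 c ≠ 0 := sub_ne_zero.2 huv
  have h2 : star (H415.uu x0 c - vv x0 c) ≠ 0 := star_ne_zero.2 h1
  have h3 : star (vv x0 c) ≠ 0 := star_ne_zero.2 hv
  rw [kap]
  simp only [star_mul', star_div₀, star_neg, star_star]
  field_simp

theorem kap_ne_zero {c : Fin (m + 1) → K} (hu : H415.uu x0 c ≠ 0) (hv : vv x0 c ≠ 0)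
    (huv : H415.uu x0 c ≠ vv x0 c) : kap x0 c ≠ 0 := by
  have h1 : H415.uu x0 c - vv x0 c ≠ 0 := sub_ne_zero.2 huv
  have h2 : star (H415.uu x0 c - vv x0 c) ≠ 0 := star_ne_zero.2 h1
  rw [kap]
  exact div_ne_zero (mul_ne_zero (neg_ne_zero.2 (div_ne_zero (star_ne_zero.2 hu) hv)) h1) h2

theorem kap_norm_ne_one {c : Fin (m + 1) → K} (hu : H415.uu x0 c ≠ 0) (hv : vv x0 c ≠ 0)
    (huv : H415.uu x0 c ≠ vv x0 c) (hn : H415.uu x0 c * star (H415.uu x0 c) ≠ vv x0 c * star (vv x0 c)) :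
    kap x0 c * star (kap x0 c) ≠ 1 := by
  rw [kap_norm hu hv huv]
  have h3 : vv x0 c * star (vv x0 c) ≠ 0 := mul_ne_zero hv (star_ne_zero.2 hv)
  intro h
  rw [div_eq_one_iff_eq h3] at h
  exact hn h

/-- The two multipliers compose to a scalar. -/
theorem chi_comp {ρ : Sq D b} {c : Fin (m + 1) → K} (hρ : aeval ρ (Pc (sc c)) = 0)
    (hv : vv x0 c ≠ 0) (huv : H415.uu x0 c ≠ vv x0 c)
    (h1 : IsUnit (aeval ρ (Pc (red x0 c)))) (h2 : IsUnit (aeval ρ (Pc (lin x0)))) :
    (aeval ρ (Pc (sc (lin x0))) * Ring.inverse (aeval ρ (Pc (lin x0)))) *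
      (aeval ρ (Pc (sc (red x0 c))) * Ring.inverse (aeval ρ (Pc (red x0 c)))) =
      kap x0 c • (1 : Sq D b) := by
  have e1 := Vale.Agent.P011.H415.red_eq huv
  have e2 := Vale.Agent.P011.H415.red_eq_star huv
  replace e1 : C (H415.uu x0 c) * Pc (sc c) - C (vv x0 c) * Pc c =
    C (H415.uu x0 c - vv x0 c) * (X - C x0) * Pc (red x0 c) := e1
  replace e2 : C (star (H415.uu x0 c)) * Pc c - C (star (vv x0 c)) * Pc (sc c) =
    C (star (H415.uu x0 c) - star (vv x0 c)) * (X - C (star x0)) * Pc (sc (red x0 c)) := e2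
  rw [← Pc_lin] at e1
  rw [← Pc_lin, ← sc_lin] at e2
  -- the polynomial identity
  have e3 : C (star (H415.uu x0 c) - star (vv x0 c)) * C (vv x0 c) *
      (Pc (sc (lin x0)) * Pc (sc (red x0 c))) =
      -(C (star (H415.uu x0 c)) * C (H415.uu x0 c - vv x0 c) * (Pc (lin x0) * Pc (red x0 c))) +
        (C (star (H415.uu x0 c)) * C (H415.uu x0 c) - C (vv x0 c) * C (star (vv x0 c))) * Pc (sc c) := by
    linear_combination -C (vv x0 c) * e2 - C (star (H415.uu x0 c)) * e1
  have n1 : H415.uu x0 c - vv x0 c ≠ 0 := sub_ne_zero.2 huv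
  have n2 : star (H415.uu x0 c) - star (vv x0 c) ≠ 0 := by
    rw [← star_sub]; exact star_ne_zero.2 n1
  have e4 := congrArg (aeval ρ) e3
  simp only [map_mul, map_add, map_neg, map_sub, hρ, mul_zero, add_zero, aeval_C] at e4
  set A := aeval ρ (Pc (red x0 c)) with hA
  set B := aeval ρ (Pc (sc (red x0 c))) with hB
  set P := aeval ρ (Pc (lin x0)) with hP
  set Q := aeval ρ (Pc (sc (lin x0))) with hQ
  have e5 : Q * B = kap x0 c • (P * A) := by
    have e6 : ((star (H415.uu x0 c) - star (vv x0 c)) * vv x0 c) • (Q * B) =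
        (-(star (H415.uu x0 c) * (H415.uu x0 c - vv x0 c))) • (P * A) := by
      simp only [Algebra.smul_def, map_mul, map_neg, map_sub, neg_mul]
      exact e4
    have e7 := congrArg (fun M => ((star (H415.uu x0 c) - star (vv x0 c)) * vv x0 c)⁻¹ • M) e6
    simp only [smul_smul] at e7
    rw [inv_mul_cancel₀ (mul_ne_zero n2 hv), one_smul] at e7
    rw [e7]
    congr 1
    rw [kap, star_sub]
    field_simp
  have cPB : P * B = B * P := by rw [hP, hB, ← map_mul, ← map_mul, mul_comm]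
  have cPi : Ring.inverse P * B = B * Ring.inverse P := inverse_comm h2 cPB
  calc Q * Ring.inverse P * (B * Ring.inverse A)
      = Q * (Ring.inverse P * B) * Ring.inverse A := by simp only [Matrix.mul_assoc]
    _ = Q * B * (Ring.inverse P * Ring.inverse A) := by rw [cPi]; simp only [Matrix.mul_assoc]
    _ = kap x0 c • (P * A * (Ring.inverse P * Ring.inverse A)) := by
        rw [e5, Matrix.smul_mul]
    _ = kap x0 c • (1 : Sq D b) := by
        have cPA : P * A = A * P := by rw [hP, hA, ← map_mul, ← map_mul, mul_comm]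
        rw [cPA, Matrix.mul_assoc, ← Matrix.mul_assoc P, Ring.mul_inverse_cancel _ h2,
          Matrix.one_mul, Ring.mul_inverse_cancel _ h1]

/-- Coprime polynomials have invertible values. -/
theorem unit_of_cop {ρ : Sq D b} {f g : K[X]} (h : IsCoprime f g) (hg : aeval ρ g = 0) :
    IsUnit (aeval ρ f) := by
  obtain ⟨p, q, hpq⟩ := h
  have h1 := congrArg (aeval ρ) hpq
  rw [map_add, map_mul, map_mul, hg, mul_zero, add_zero, map_one] at h1
  have h2 : aeval ρ f * aeval ρ p = 1 := by rw [← h1, ← map_mul, ← map_mul, mul_comm]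
  exact ⟨⟨_, _, h2, h1⟩, rfl⟩

theorem cop_lin_of {f : K[X]} {x : K} (h : f.eval x ≠ 0) : IsCoprime (Pc (lin x)) f := by
  rw [Pc_lin]
  refine (Irreducible.coprime_iff_not_dvd (irreducible_X_sub_C x)).2 fun hd => ?_
  exact h (dvd_iff_isRoot.1 hd)

/-- **The composite multiplier is a scalar.** -/
theorem exg_comp {r : Sq D b} {c : Fin (m + 2) → K} (hr : aeval r (Pc c) = 0)
    (hv : vv x0 c ≠ 0) (huv : H415.uu x0 c ≠ vv x0 c)
    (h1 : IsUnit (aeval rᴴ (Pc (red x0 c)))) (h2 : IsUnit (aeval rᴴ (Pc (lin x0)))) :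
    exg (lin x0) r * exg (red x0 c) r = kap x0 c • (1 : Sq D b) :=
  chi_comp (by rw [H439.aeval_conj, hr, conjTranspose_zero]) hv huv h1 h2

/-- The form with the second columns. -/
theorem exv_comp {r : Sq D b} {c : Fin (m + 2) → K} (hr : aeval r (Pc c) = 0)
    (hv : vv x0 c ≠ 0) (huv : H415.uu x0 c ≠ vv x0 c)
    (h1 : IsUnit (aeval rᴴ (Pc (red x0 c)))) (h2 : IsUnit (aeval rᴴ (Pc (lin x0))))
    (v : Col D b) : exv (lin x0) r (exv (red x0 c) r v) = kap x0 c • v := by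
  rw [exv_eq, exv_eq, ← Matrix.mul_assoc, exg_comp hr hv huv h1 h2, Matrix.smul_mul,
    Matrix.one_mul]

/-- All four values are invertible. -/
theorem red_units {m : ℕ} {r : Sq D b} {c : Fin (m + 2) → K} (hr : aeval r (Pc c) = 0)
    (hc : IsCoprime (Pc c) (Pc (sc c))) (hu : H415.uu x0 c ≠ 0) (hv : vv x0 c ≠ 0)
    (huv : H415.uu x0 c ≠ vv x0 c) :
    IsUnit (aeval rᴴ (Pc (red x0 c))) ∧ IsUnit (aeval rᴴ (Pc (sc (red x0 c)))) ∧
      IsUnit (aeval rᴴ (Pc (lin x0))) ∧ IsUnit (aeval rᴴ (Pc (sc (lin x0)))) := by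
  have hρ : aeval rᴴ (Pc (sc c)) = 0 := by rw [H439.aeval_conj, hr, conjTranspose_zero]
  refine ⟨unit_of_cop (H415.red_cop_right huv hv hc) hρ, ?_, unit_of_cop (cop_lin_of hv) hρ, ?_⟩
  · have h1 : IsCoprime (Pc (sc (red x0 c))) (Pc (sc c)) := by
      have h := (H415.red_cop_left huv hu hc).map (Polynomial.mapRingHom (starRingEnd K))
      simp only [Polynomial.coe_mapRingHom, H415.map_Pc] at h
      exact h
    exact unit_of_cop h1 hρ
  · rw [sc_lin]
    refine unit_of_cop (cop_lin_of ?_) hρ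
    have h := H415.star_eval c x0
    intro h0
    have h2 : star ((H415.Pc c).eval x0) = 0 := by rw [h]; exact h0
    exact hu (star_eq_zero.1 h2)

theorem lin_cop {x0 : K} (h : star x0 ≠ x0) : IsCoprime (Pc (lin x0)) (Pc (sc (lin x0))) := by
  rw [sc_lin]
  refine cop_lin_of ?_
  rw [Pc_lin, eval_sub, eval_X, eval_C]
  exact sub_ne_zero.2 (Ne.symm h)

end alg

section top

variable {K : Type*} [Field K] [StarRing K] [TopologicalSpace K] [IsTopologicalRing K]
  [ContinuousStar K] [ContinuousInv₀ K] [T1Space K] {m : ℕ} {x0 : K}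

/-- The scalar is continuous. -/
theorem kap_cont {c0 : Fin (m + 1) → K} (hv : vv x0 c0 ≠ 0) (huv : H415.uu x0 c0 ≠ vv x0 c0) :
    ContinuousAt (kap x0) c0 := by
  have cu : ContinuousAt (H415.uu (m := m + 1) x0) c0 := (H415.cont_uu (m + 1) x0).continuousAt
  have cv : ContinuousAt (vv (m := m + 1) x0) c0 := (H415.cont_vv (m + 1) x0).continuousAt
  have n1 : star (H415.uu x0 c0 - vv x0 c0) ≠ 0 := star_ne_zero.2 (sub_ne_zero.2 huv)
  exact ((((cu.star.div cv hv).neg).mul (cu.sub cv)).div ((cu.sub cv).star) n1)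

/-- The conditions hold near the base. -/
theorem red_near {c0 : Fin (m + 1) → K} (hu : H415.uu x0 c0 ≠ 0) (hv : vv x0 c0 ≠ 0)
    (huv : H415.uu x0 c0 ≠ vv x0 c0)
    (hn : H415.uu x0 c0 * star (H415.uu x0 c0) ≠ vv x0 c0 * star (vv x0 c0)) :
    ∀ᶠ c in 𝓝 c0, H415.uu x0 c ≠ 0 ∧ vv x0 c ≠ 0 ∧ H415.uu x0 c ≠ vv x0 c ∧
      H415.uu x0 c * star (H415.uu x0 c) ≠ vv x0 c * star (vv x0 c) := by
  have cu : ContinuousAt (H415.uu (m := m + 1) x0) c0 := (H415.cont_uu (m + 1) x0).continuousAt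
  have cv : ContinuousAt (vv (m := m + 1) x0) c0 := (H415.cont_vv (m + 1) x0).continuousAt
  have e1 := cu.eventually_ne hu
  have e2 := cv.eventually_ne hv
  have e3 := (cu.sub cv).eventually_ne (sub_ne_zero.2 huv)
  have e4 := ((cu.mul cu.star).sub (cv.mul cv.star)).eventually_ne (sub_ne_zero.2 hn)
  filter_upwards [e1, e2, e3, e4] with c h1 h2 h3 h4
  exact ⟨h1, h2, sub_ne_zero.1 h3, sub_ne_zero.1 h4⟩

end top

end Vale.Agent.P011.H95.Odd
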