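import Vale.Agent.P011.H439.Near
import Vale.Agent.P011.H95.Odd.Kap
import Vale.Agent.P011.H27.Odd.LemL2
import Vale.Agent.P011.H223.Gen
import Vale.Agent.P011.H640.RedT

/-!
**Local constancy, assembly.**
-/

open Matrix Polynomial Filter Topology
open Vale.Agent.P011.H439

set_option linter.unusedSectionVars false

namespace Vale.Agent.P011.H95.Odd

open Vale.Agent.P011.H415 (vv red)

variable {K D E : Type*} [Field K] [StarRing K] [TopologicalSpace K] [IsTopologicalDivisionRing K]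
  [ContinuousStar K] [T1Space K] [DivisionRing D] [StarRing D] [Algebra K D]
  [StarModule K D] [TopologicalSpace D] [IsTopologicalDivisionRing D] [ContinuousStar D]
  [T1Space D] [NonarchimedeanAddGroup D] [AddCommGroup E] {W : Set D} {ch : D → E} {m b j : ℕ}

/-- The span property. -/
def Spn (D : Type*) [DivisionRing D] [StarRing D] [TopologicalSpace D] : Prop :=
  ∀ O ∈ 𝓝 (1 : D),
    (AddSubgroup.closure {x : D | ∃ u ∈ O, u * star u = 1 ∧ x = u - 1} : Set D) ∈ 𝓝 (0 : D)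

/-- Small scalars with norm outside a finite set. -/
def SmK (K : Type*) [Field K] [StarRing K] [TopologicalSpace K] : Prop :=
  ∀ O ∈ 𝓝 (0 : K), ∀ S : Finset K, ∃ ν ∈ O, ν ≠ 0 ∧ ν * star ν ∉ S

/-- Local constancy in degree `m`. -/
def LCp (K : Type*) {D E : Type*} [Field K] [StarRing K] [TopologicalSpace K] [DivisionRing D]
    [StarRing D] [Algebra K D] [TopologicalSpace D] [AddCommGroup E] (W : Set D) (ch : D → E)
    (m : ℕ) : Prop :=
  ∀ (b : ℕ) (c0 : Fin m → K) (r0 : Sq D b) (w0 : Col D b), IsCoprime (Pc c0) (Pc (sc c0)) →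
    Dm W c0 r0 0 w0 →
    ∀ᶠ x : ((Fin m → K) × Sq D b) × Col D b × Col D b × Col D b × Col D b in
      𝓝 ((c0, r0), 0, w0, 0, w0), aeval x.1.2 (Pc x.1.1) = 0 →
        FF ch x.1.1 x.1.2 x.2.1 x.2.2.1 = FF ch x.1.1 x.1.2 x.2.2.2.1 x.2.2.2.2

theorem h1_nr (hcont : Continuous (algebraMap K D)) (hc : Chr K W ch) {c0 : Fin m → K}
    {r0 : Sq D b} {w0 : Col D b} (h : Dm W c0 r0 0 w0) :
    ∀ᶠ x : ((Fin m → K) × Sq D b) × Col D b × Col D b × K in 𝓝 ((c0, r0), 0, w0, 0),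
      aeval x.1.2 (Pc x.1.1) = 0 →
      Dm W x.1.1 x.1.2 x.2.1 x.2.2.1 ∧
      FF ch x.1.1 x.1.2 (x.2.1 + x.2.2.2 • x.2.2.1)
        (x.2.2.1 + star x.2.2.2 • (x.1.2ᴴ * x.2.1)) = FF ch x.1.1 x.1.2 x.2.1 x.2.2.1 := by
  have := contSMul hcont
  have hd := dm_near hcont hc h
  have t1 : Tendsto (fun x : ((Fin m → K) × Sq D b) × Col D b × Col D b × K =>
      (x.1, x.2.1, x.2.2.1)) (𝓝 ((c0, r0), 0, w0, 0)) (𝓝 ((c0, r0), 0, w0)) := by
    have : Continuous (fun x : ((Fin m → K) × Sq D b) × Col D b × Col D b × K =>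
      (x.1, x.2.1, x.2.2.1)) := by fun_prop
    exact this.tendsto _
  have t2 : Tendsto (fun x : ((Fin m → K) × Sq D b) × Col D b × Col D b × K =>
      (x.1, x.2.1 + x.2.2.2 • x.2.2.1, x.2.2.1 + star x.2.2.2 • (x.1.2ᴴ * x.2.1)))
      (𝓝 ((c0, r0), 0, w0, 0)) (𝓝 ((c0, r0), 0, w0)) := by
    have : Continuous (fun x : ((Fin m → K) × Sq D b) × Col D b × Col D b × K =>
      (x.1, x.2.1 + x.2.2.2 • x.2.2.1, x.2.2.1 + star x.2.2.2 • (x.1.2ᴴ * x.2.1))) := by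
      fun_prop
    have h := this.tendsto ((c0, r0), 0, w0, 0)
    simpa using h
  filter_upwards [t1.eventually hd, t2.eventually hd] with x h1 h2 hx
  exact ⟨h1 hx, FF_move hc (h1 hx) _ (h2 hx)⟩

theorem h3_nr (hcont : Continuous (algebraMap K D)) (hc : Chr K W ch) {c0 : Fin m → K}
    {r0 : Sq D b} {w0 : Col D b} (h : Dm W c0 r0 0 w0) :
    ∀ᶠ x : ((Fin m → K) × Sq D b) × Col D b × Col D b × D in 𝓝 ((c0, r0), 0, w0, 1),
      aeval x.1.2 (Pc x.1.1) = 0 → x.2.2.2 * star x.2.2.2 = 1 →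
      FF ch x.1.1 x.1.2 (x.2.1.map (· * x.2.2.2)) x.2.2.1 =
        FF ch x.1.1 x.1.2 x.2.1 x.2.2.1 := by
  have hd := dm_near hcont hc h
  have t1 : Tendsto (fun x : ((Fin m → K) × Sq D b) × Col D b × Col D b × D =>
      (x.1, x.2.1, x.2.2.1)) (𝓝 ((c0, r0), 0, w0, 1)) (𝓝 ((c0, r0), 0, w0)) := by
    have : Continuous (fun x : ((Fin m → K) × Sq D b) × Col D b × Col D b × D =>
      (x.1, x.2.1, x.2.2.1)) := by fun_prop
    exact this.tendsto _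
  have t2 : Tendsto (fun x : ((Fin m → K) × Sq D b) × Col D b × Col D b × D => x.2.2.2)
      (𝓝 ((c0, r0), 0, w0, 1)) (𝓝 1) := by
    have : Continuous (fun x : ((Fin m → K) × Sq D b) × Col D b × Col D b × D => x.2.2.2) := by
      fun_prop
    exact this.tendsto _
  filter_upwards [t1.eventually hd, t2.eventually hc.near] with x h1 h2 hx hu
  exact (FF_unit hc (h1 hx) (h2 hu)).2

theorem lemL_pi (hcont : Continuous (algebraMap K D)) (hspan : Spn D) (hK : SmK K)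
    (c0 : Fin m → K) (r0 : Sq D b)
    (α : (Fin m → K) × Sq D b → Sq D b)
    (hρ : ContinuousAt (fun x : (Fin m → K) × Sq D b => x.2ᴴ) (c0, r0))
    (hα : ContinuousAt α (c0, r0)) (w0 : Col D b) (ch : D → E)
    (H1 : ∀ᶠ x : ((Fin m → K) × Sq D b) × Col D b × Col D b × K in 𝓝 ((c0, r0), 0, w0, 0),
      aeval x.1.2 (Pc x.1.1) = 0 →
      FF ch x.1.1 x.1.2 (x.2.1 + x.2.2.2 • x.2.2.1)
        (x.2.2.1 + star x.2.2.2 • (x.1.2ᴴ * x.2.1)) = FF ch x.1.1 x.1.2 x.2.1 x.2.2.1)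
    (H2 : ∀ᶠ x : ((Fin m → K) × Sq D b) × Col D b × Col D b × K in 𝓝 ((c0, r0), 0, w0, 0),
      aeval x.1.2 (Pc x.1.1) = 0 →
      FF ch x.1.1 x.1.2 (x.2.1 + x.2.2.2 • x.2.2.1)
        (x.2.2.1 + star x.2.2.2 • (α x.1 * x.2.1)) = FF ch x.1.1 x.1.2 x.2.1 x.2.2.1)
    (H3 : ∀ᶠ x : ((Fin m → K) × Sq D b) × Col D b × Col D b × D in 𝓝 ((c0, r0), 0, w0, 1),
      aeval x.1.2 (Pc x.1.1) = 0 → x.2.2.2 * star x.2.2.2 = 1 →
      FF ch x.1.1 x.1.2 (x.2.1.map (· * x.2.2.2)) x.2.2.1 =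
        FF ch x.1.1 x.1.2 x.2.1 x.2.2.1)
    (hg : ∀ c : Fin m → K, Function.Injective c → (∀ j, IsUnit (1 - c j • r0ᴴ)) →
      ∃ R : Matrix (Fin m) (Fin b) D, (Matrix.of fun i j =>
        ((α (c0, r0) - r0ᴴ) * Ring.inverse (1 - c j • r0ᴴ) * w0) i 0) * R = 1) :
    ∀ᶠ x : ((Fin m → K) × Sq D b) × Col D b × Col D b × Col D b × Col D b in
      𝓝 ((c0, r0), 0, w0, 0, w0), aeval x.1.2 (Pc x.1.1) = 0 →
        FF ch x.1.1 x.1.2 x.2.1 x.2.2.1 = FF ch x.1.1 x.1.2 x.2.2.2.1 x.2.2.2.2 :=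
  H27.Odd.lemL (Pi := (Fin m → K) × Sq D b) (E := E) hcont hspan hK (c0, r0)
    {x | aeval x.2 (Pc x.1) = 0}
    (fun x => x.2ᴴ) α hρ hα w0 (fun x w1 w2 => FF ch x.1 x.2 w1 w2) H1 H2 H3 hg

theorem gen_nr {c0 : Fin m → K} {r0 : Sq D b} {w0 : Col D b} (h : Dm W c0 r0 0 w0)
    (A : Sq D b) (hu : IsUnit (A - r0ᴴ)) (c : Fin m → K) (hci : Function.Injective c)
    (hcu : ∀ j, IsUnit (1 - c j • r0ᴴ)) :
    ∃ R : Matrix (Fin m) (Fin b) D, (Matrix.of fun i j =>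
      ((A - r0ᴴ) * Ring.inverse (1 - c j • r0ᴴ) * w0) i 0) * R = 1 := by
  have hw := aa_syl h.ann h.cop 0 w0
  rw [Matrix.conjTranspose_zero, Matrix.mul_zero, Matrix.mul_zero, sub_zero] at hw
  have hρ0 : aeval r0ᴴ (Pc (sc c0)) = 0 := by
    rw [H439.aeval_conj, h.ann, conjTranspose_zero]
  exact H223.gen (c0 := c0) hρ0 h.cop h.au hw hu hci hcu

theorem lc_moves (hcont : Continuous (algebraMap K D)) (hspan : Spn D) (hK : SmK K)
    (hc : Chr K W ch) {c0 : Fin m → K} {r0 : Sq D b} {w0 : Col D b} (h : Dm W c0 r0 0 w0)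
    (α : (Fin m → K) × Sq D b → Sq D b) (hα : ContinuousAt α (c0, r0))
    (hu : IsUnit (α (c0, r0) - r0ᴴ))
    (H2 : ∀ᶠ x : ((Fin m → K) × Sq D b) × Col D b × Col D b × K in 𝓝 ((c0, r0), 0, w0, 0),
      aeval x.1.2 (Pc x.1.1) = 0 →
      FF ch x.1.1 x.1.2 (x.2.1 + x.2.2.2 • x.2.2.1)
        (x.2.2.1 + star x.2.2.2 • (α x.1 * x.2.1)) = FF ch x.1.1 x.1.2 x.2.1 x.2.2.1) :
    ∀ᶠ x : ((Fin m → K) × Sq D b) × Col D b × Col D b × Col D b × Col D b in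
      𝓝 ((c0, r0), 0, w0, 0, w0), aeval x.1.2 (Pc x.1.1) = 0 →
        FF ch x.1.1 x.1.2 x.2.1 x.2.2.1 = FF ch x.1.1 x.1.2 x.2.2.2.1 x.2.2.2.2 := by
  have hρ : ContinuousAt (fun x : (Fin m → K) × Sq D b => x.2ᴴ) (c0, r0) := by fun_prop
  have hg := gen_nr h (α (c0, r0)) hu
  have h1 : ∀ᶠ x : ((Fin m → K) × Sq D b) × Col D b × Col D b × K in 𝓝 ((c0, r0), 0, w0, 0),
      aeval x.1.2 (Pc x.1.1) = 0 →
      FF ch x.1.1 x.1.2 (x.2.1 + x.2.2.2 • x.2.2.1)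
        (x.2.2.1 + star x.2.2.2 • (x.1.2ᴴ * x.2.1)) = FF ch x.1.1 x.1.2 x.2.1 x.2.2.1 := by
    filter_upwards [h1_nr hcont hc h] with x hx hA
    exact (hx hA).2
  exact lemL_pi hcont hspan hK c0 r0 α hρ hα w0 ch h1 H2 (h3_nr hcont hc h) hg

/-- **The exchange near the base.** -/
theorem ex_nr (hcont : Continuous (algebraMap K D)) (hc : Chr K W ch)
    (hLC : LCp K W ch (j + 1)) {c0 : Fin m → K} {r0 : Sq D b} {w0 : Col D b}
    (h : Dm W c0 r0 0 w0) (g : (Fin m → K) → Fin (j + 1) → K) (hg : ContinuousAt g c0)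
    (hcop : ∀ᶠ c in 𝓝 c0, IsCoprime (Pc (g c)) (Pc (sc (g c))))
    (hu : IsUnit (aeval r0ᴴ (Pc (g c0)))) (hu' : IsUnit (aeval r0ᴴ (Pc (sc (g c0))))) :
    ∃ C : (Fin m → K) → E,
      ∀ᶠ x : ((Fin m → K) × Sq D b) × Col D b × Col D b in 𝓝 ((c0, r0), 0, w0),
        aeval x.1.2 (Pc x.1.1) = 0 →
        FF ch x.1.1 x.1.2 x.2.1 (exv (g x.1.1) x.1.2 x.2.2) =
          FF ch x.1.1 x.1.2 x.2.1 x.2.2 + C x.1.1 := by
  have hb := dm_template hc h hu hu' hcop.self_of_nhds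
  have hl := hLC (j + 1) (g c0) (tD D (g c0)) (exw2 c0 (g c0) r0 0 w0) hcop.self_of_nhds hb
  refine ⟨fun c => FF ch (g c) (tD D (g c)) 0 (exw2 c0 (g c0) r0 0 w0), ?_⟩
  have cc : ContinuousAt (fun x : ((Fin m → K) × Sq D b) × Col D b × Col D b => x.1.1)
      ((c0, r0), 0, w0) := by fun_prop
  have cr : ContinuousAt (fun x : ((Fin m → K) × Sq D b) × Col D b × Col D b => x.1.2)
      ((c0, r0), 0, w0) := by fun_prop
  have c1 : ContinuousAt (fun x : ((Fin m → K) × Sq D b) × Col D b × Col D b => x.2.1)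
      ((c0, r0), 0, w0) := by fun_prop
  have c2 : ContinuousAt (fun x : ((Fin m → K) × Sq D b) × Col D b × Col D b => x.2.2)
      ((c0, r0), 0, w0) := by fun_prop
  have cg : ContinuousAt (fun x : ((Fin m → K) × Sq D b) × Col D b × Col D b => g x.1.1)
      ((c0, r0), 0, w0) := ContinuousAt.comp (f := fun x :
        ((Fin m → K) × Sq D b) × Col D b × Col D b => x.1.1) hg cc
  have cv : Tendsto (fun x : ((Fin m → K) × Sq D b) × Col D b × Col D b =>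
      exv (g x.1.1) x.1.2 x.2.2) (𝓝 ((c0, r0), 0, w0)) (𝓝 (exv (g c0) r0 w0)) :=
    (cExv hcont cg cr c2 hu).tendsto
  have cw1 : Tendsto (fun x : ((Fin m → K) × Sq D b) × Col D b × Col D b =>
      exw1 x.1.1 (g x.1.1) x.1.2 x.2.1 x.2.2) (𝓝 ((c0, r0), 0, w0)) (𝓝 0) := by
    have h' := (cExw1 hcont cc cg cr c1 c2 h.cop h.au hu).tendsto
    rwa [exw1_zero] at h'
  have cw2 : Tendsto (fun x : ((Fin m → K) × Sq D b) × Col D b × Col D b =>
      exw2 x.1.1 (g x.1.1) x.1.2 x.2.1 x.2.2) (𝓝 ((c0, r0), 0, w0))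
      (𝓝 (exw2 c0 (g c0) r0 0 w0)) :=
    (cExw2 hcont cc cg cr c1 c2 h.cop h.au hu).tendsto
  have ct : Tendsto (fun x : ((Fin m → K) × Sq D b) × Col D b × Col D b =>
      tD D (g x.1.1)) (𝓝 ((c0, r0), 0, w0)) (𝓝 (tD D (g c0))) := (cTD hcont (D := D) cg).tendsto
  have d1 := dm_near hcont hc h
  have d2 := dm_near hcont hc (dm_exv0 h hu hu')
  have t2 : Tendsto (fun x : ((Fin m → K) × Sq D b) × Col D b × Col D b =>
      (x.1, x.2.1, exv (g x.1.1) x.1.2 x.2.2)) (𝓝 ((c0, r0), 0, w0))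
      (𝓝 ((c0, r0), 0, exv (g c0) r0 w0)) :=
    continuousAt_fst.tendsto.prodMk_nhds (c1.tendsto.prodMk_nhds cv)
  have t3 : Tendsto (fun x : ((Fin m → K) × Sq D b) × Col D b × Col D b =>
      ((g x.1.1, tD D (g x.1.1)), exw1 x.1.1 (g x.1.1) x.1.2 x.2.1 x.2.2,
        exw2 x.1.1 (g x.1.1) x.1.2 x.2.1 x.2.2, (0 : Col D (j + 1)),
        exw2 c0 (g c0) r0 0 w0)) (𝓝 ((c0, r0), 0, w0))
      (𝓝 ((g c0, tD D (g c0)), 0, exw2 c0 (g c0) r0 0 w0, 0, exw2 c0 (g c0) r0 0 w0)) :=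
    (cg.tendsto.prodMk_nhds ct).prodMk_nhds (cw1.prodMk_nhds (cw2.prodMk_nhds
      (tendsto_const_nhds.prodMk_nhds tendsto_const_nhds)))
  have t4 := (cAeval hcont cg (cConj cr)).eventually
    (Vale.Agent.P011.H341.Odd.eventually_isUnit hu)
  filter_upwards [d1, t2.eventually d2, t3.eventually hl, t4, cc.eventually hcop]
    with x h1 h2 h3 h4 h5 hx
  obtain ⟨e1, e2⟩ := exchange hc (h1 hx) (h2 hx) h4 h5
  have e3 : FF ch (g x.1.1) (tD D (g x.1.1)) (exw1 x.1.1 (g x.1.1) x.1.2 x.2.1 x.2.2)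
        (exw2 x.1.1 (g x.1.1) x.1.2 x.2.1 x.2.2) =
      FF ch (g x.1.1) (tD D (g x.1.1)) 0 (exw2 c0 (g c0) r0 0 w0) := h3 e1.ann
  clear h3
  rw [e2, e3]

/-- **The composite multiplier.** -/
theorem comp_nr (hcont : Continuous (algebraMap K D)) (hc : Chr K W ch)
    (hLC : LCp K W ch (m + 1)) (hLC1 : LCp K W ch 1) {c0 : Fin (m + 2) → K} {r0 : Sq D b}
    {w0 : Col D b} (hcop : IsCoprime (Pc c0) (Pc (sc c0))) (h : Dm W c0 r0 0 w0) {x0 : K}
    (hx0 : star x0 ≠ x0) (hu : H415.uu x0 c0 ≠ 0) (hv : vv x0 c0 ≠ 0)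
    (huv : H415.uu x0 c0 ≠ vv x0 c0)
    (hn : H415.uu x0 c0 * star (H415.uu x0 c0) ≠ vv x0 c0 * star (vv x0 c0)) :
    Dm W c0 r0 0 (kap x0 c0 • w0) ∧ ∃ C : (Fin (m + 2) → K) → E,
      ∀ᶠ x : ((Fin (m + 2) → K) × Sq D b) × Col D b × Col D b in 𝓝 ((c0, r0), 0, w0),
        aeval x.1.2 (Pc x.1.1) = 0 →
        FF ch x.1.1 x.1.2 x.2.1 (kap x0 x.1.1 • x.2.2) =
          FF ch x.1.1 x.1.2 x.2.1 x.2.2 + C x.1.1 := by
  obtain ⟨u1, u2, u3, u4⟩ := red_units h.ann hcop hu hv huv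
  have hnear := red_near hu hv huv hn
  have hcn := H640.cop_near hcop
  have hg : ContinuousAt (red (m := m + 1) x0) c0 := H415.cont_red huv
  have hb2 := dm_exv0 h u1 u2
  have hb3 := dm_exv0 hb2 u3 u4
  rw [exv_comp h.ann hv huv u1 u3] at hb3
  refine ⟨hb3, ?_⟩
  obtain ⟨C1, hC1⟩ := ex_nr hcont hc hLC h (red x0) hg
    (by filter_upwards [hnear, hcn] with c h1 h2 using H415.red_cop h1.2.2.1 h1.2.2.2 h2) u1 u2
  obtain ⟨C2, hC2⟩ := ex_nr hcont hc hLC1 hb2 (fun _ => lin x0) continuousAt_const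
    (Eventually.of_forall fun _ => lin_cop hx0) u3 u4
  refine ⟨fun c => C1 c + C2 c, ?_⟩
  have cc : ContinuousAt (fun x : ((Fin (m + 2) → K) × Sq D b) × Col D b × Col D b => x.1.1)
      ((c0, r0), 0, w0) := by fun_prop
  have cr : ContinuousAt (fun x : ((Fin (m + 2) → K) × Sq D b) × Col D b × Col D b => x.1.2)
      ((c0, r0), 0, w0) := by fun_prop
  have c1 : ContinuousAt (fun x : ((Fin (m + 2) → K) × Sq D b) × Col D b × Col D b => x.2.1)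
      ((c0, r0), 0, w0) := by fun_prop
  have c2 : ContinuousAt (fun x : ((Fin (m + 2) → K) × Sq D b) × Col D b × Col D b => x.2.2)
      ((c0, r0), 0, w0) := by fun_prop
  have cg : ContinuousAt (fun x : ((Fin (m + 2) → K) × Sq D b) × Col D b × Col D b =>
      red x0 x.1.1) ((c0, r0), 0, w0) := ContinuousAt.comp (g := red (m := m + 1) x0) (f := fun x :
        ((Fin (m + 2) → K) × Sq D b) × Col D b × Col D b => x.1.1) hg cc
  have cv : Tendsto (fun x : ((Fin (m + 2) → K) × Sq D b) × Col D b × Col D b =>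
      exv (red x0 x.1.1) x.1.2 x.2.2) (𝓝 ((c0, r0), 0, w0)) (𝓝 (exv (red x0 c0) r0 w0)) :=
    (cExv hcont cg cr c2 u1).tendsto
  have t2 : Tendsto (fun x : ((Fin (m + 2) → K) × Sq D b) × Col D b × Col D b =>
      (x.1, x.2.1, exv (red x0 x.1.1) x.1.2 x.2.2)) (𝓝 ((c0, r0), 0, w0))
      (𝓝 ((c0, r0), 0, exv (red x0 c0) r0 w0)) :=
    continuousAt_fst.tendsto.prodMk_nhds (c1.tendsto.prodMk_nhds cv)
  filter_upwards [hC1, t2.eventually hC2, cc.eventually hnear, cc.eventually hcn]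
    with x k1 k2 k3 k4 hx
  obtain ⟨v1, _, v3, _⟩ := red_units hx k4 k3.1 k3.2.1 k3.2.2.1
  have e1 : FF ch x.1.1 x.1.2 x.2.1 (exv (red x0 x.1.1) x.1.2 x.2.2) =
      FF ch x.1.1 x.1.2 x.2.1 x.2.2 + C1 x.1.1 := k1 hx
  have e2 : FF ch x.1.1 x.1.2 x.2.1 (exv (lin x0) x.1.2 (exv (red x0 x.1.1) x.1.2 x.2.2)) =
      FF ch x.1.1 x.1.2 x.2.1 (exv (red x0 x.1.1) x.1.2 x.2.2) + C2 x.1.1 := k2 hx
  rw [exv_comp hx k3.2.1 k3.2.2.1 v1 v3, e1, add_assoc] at e2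
  exact e2

/-- **The second move.** -/
theorem h2_nr (hcont : Continuous (algebraMap K D)) (hc : Chr K W ch) {c0 : Fin m → K}
    {r0 : Sq D b} {w0 : Col D b} (κ : (Fin m → K) → K) (hκ : ContinuousAt κ c0)
    (hκ0 : κ c0 ≠ 0) (h' : Dm W c0 r0 0 (κ c0 • w0)) {C : (Fin m → K) → E}
    (hC : ∀ᶠ x : ((Fin m → K) × Sq D b) × Col D b × Col D b in 𝓝 ((c0, r0), 0, w0),
        aeval x.1.2 (Pc x.1.1) = 0 →
        FF ch x.1.1 x.1.2 x.2.1 (κ x.1.1 • x.2.2) =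
          FF ch x.1.1 x.1.2 x.2.1 x.2.2 + C x.1.1) :
    ∀ᶠ x : ((Fin m → K) × Sq D b) × Col D b × Col D b × K in 𝓝 ((c0, r0), 0, w0, 0),
      aeval x.1.2 (Pc x.1.1) = 0 →
      FF ch x.1.1 x.1.2 (x.2.1 + x.2.2.2 • x.2.2.1)
        (x.2.2.1 + star x.2.2.2 • (((κ x.1.1 * star (κ x.1.1))⁻¹ • x.1.2ᴴ) * x.2.1)) =
        FF ch x.1.1 x.1.2 x.2.1 x.2.2.1 := by
  have := contSMul hcont
  have hm := h1_nr hcont hc h'
  have p0 : Tendsto (fun x : ((Fin m → K) × Sq D b) × Col D b × Col D b × K => x.1)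
      (𝓝 ((c0, r0), 0, w0, 0)) (𝓝 (c0, r0)) := by
    have : Continuous (fun x : ((Fin m → K) × Sq D b) × Col D b × Col D b × K => x.1) := by
      fun_prop
    exact this.tendsto _
  have pk : Tendsto (fun x : ((Fin m → K) × Sq D b) × Col D b × Col D b × K => κ x.1.1)
      (𝓝 ((c0, r0), 0, w0, 0)) (𝓝 (κ c0)) := by
    have : Tendsto (fun x : ((Fin m → K) × Sq D b) × Col D b × Col D b × K => x.1.1)
        (𝓝 ((c0, r0), 0, w0, 0)) (𝓝 c0) := (continuous_fst.tendsto _).comp p0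
    exact hκ.tendsto.comp this
  have p1 : Tendsto (fun x : ((Fin m → K) × Sq D b) × Col D b × Col D b × K => x.2.1)
      (𝓝 ((c0, r0), 0, w0, 0)) (𝓝 0) := by
    have : Continuous (fun x : ((Fin m → K) × Sq D b) × Col D b × Col D b × K => x.2.1) := by
      fun_prop
    exact this.tendsto _
  have p2 : Tendsto (fun x : ((Fin m → K) × Sq D b) × Col D b × Col D b × K => x.2.2.1)
      (𝓝 ((c0, r0), 0, w0, 0)) (𝓝 w0) := by
    have : Continuous (fun x : ((Fin m → K) × Sq D b) × Col D b × Col D b × K => x.2.2.1) := by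
      fun_prop
    exact this.tendsto _
  have p3 : Tendsto (fun x : ((Fin m → K) × Sq D b) × Col D b × Col D b × K => x.2.2.2)
      (𝓝 ((c0, r0), 0, w0, 0)) (𝓝 0) := by
    have : Continuous (fun x : ((Fin m → K) × Sq D b) × Col D b × Col D b × K => x.2.2.2) := by
      fun_prop
    exact this.tendsto _
  have pr : Tendsto (fun x : ((Fin m → K) × Sq D b) × Col D b × Col D b × K => x.1.2ᴴ)
      (𝓝 ((c0, r0), 0, w0, 0)) (𝓝 r0ᴴ) := by
    have : Continuous (fun x : ((Fin m → K) × Sq D b) × Col D b × Col D b × K => x.1.2ᴴ) := by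
      fun_prop
    exact this.tendsto _
  -- at the point itself
  have t1 : Tendsto (fun x : ((Fin m → K) × Sq D b) × Col D b × Col D b × K =>
      (x.1, x.2.1, x.2.2.1)) (𝓝 ((c0, r0), 0, w0, 0)) (𝓝 ((c0, r0), 0, w0)) :=
    p0.prodMk_nhds (p1.prodMk_nhds p2)
  -- the move at the scaled point
  have t2 : Tendsto (fun x : ((Fin m → K) × Sq D b) × Col D b × Col D b × K =>
      (x.1, x.2.1, κ x.1.1 • x.2.2.1, x.2.2.2 * (κ x.1.1)⁻¹)) (𝓝 ((c0, r0), 0, w0, 0))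
      (𝓝 ((c0, r0), 0, κ c0 • w0, 0)) := by
    have q : Tendsto (fun x : ((Fin m → K) × Sq D b) × Col D b × Col D b × K =>
        x.2.2.2 * (κ x.1.1)⁻¹) (𝓝 ((c0, r0), 0, w0, 0)) (𝓝 0) := by
      have := p3.mul (pk.inv₀ hκ0)
      rwa [zero_mul] at this
    exact p0.prodMk_nhds (p1.prodMk_nhds ((pk.smul p2).prodMk_nhds q))
  -- the new point
  have t3 : Tendsto (fun x : ((Fin m → K) × Sq D b) × Col D b × Col D b × K =>
      (x.1, x.2.1 + x.2.2.2 • x.2.2.1,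
        x.2.2.1 + star x.2.2.2 • (((κ x.1.1 * star (κ x.1.1))⁻¹ • x.1.2ᴴ) * x.2.1)))
      (𝓝 ((c0, r0), 0, w0, 0)) (𝓝 ((c0, r0), 0, w0)) := by
    have q1 : Tendsto (fun x : ((Fin m → K) × Sq D b) × Col D b × Col D b × K =>
        x.2.1 + x.2.2.2 • x.2.2.1) (𝓝 ((c0, r0), 0, w0, 0)) (𝓝 0) := by
      have := p1.add (p3.smul p2)
      rwa [zero_smul, add_zero] at this
    have q2 : Tendsto (fun x : ((Fin m → K) × Sq D b) × Col D b × Col D b × K =>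
        (κ x.1.1 * star (κ x.1.1))⁻¹) (𝓝 ((c0, r0), 0, w0, 0))
        (𝓝 (κ c0 * star (κ c0))⁻¹) :=
      (pk.mul pk.star).inv₀ (mul_ne_zero hκ0 (star_ne_zero.2 hκ0))
    have q3 : Tendsto (fun x : ((Fin m → K) × Sq D b) × Col D b × Col D b × K =>
        (((κ x.1.1 * star (κ x.1.1))⁻¹ • x.1.2ᴴ) * x.2.1)) (𝓝 ((c0, r0), 0, w0, 0))
        (𝓝 (((κ c0 * star (κ c0))⁻¹ • r0ᴴ) * (0 : Col D b))) := by
      have hM : Continuous fun y : Sq D b × Col D b => y.1 * y.2 :=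
        continuous_fst.matrix_mul continuous_snd
      exact (hM.tendsto _).comp ((q2.smul pr).prodMk_nhds p1)
    have q4 : Tendsto (fun x : ((Fin m → K) × Sq D b) × Col D b × Col D b × K =>
        x.2.2.1 + star x.2.2.2 • (((κ x.1.1 * star (κ x.1.1))⁻¹ • x.1.2ᴴ) * x.2.1))
        (𝓝 ((c0, r0), 0, w0, 0)) (𝓝 w0) := by
      have := p2.add (p3.star.smul q3)
      rwa [star_zero, zero_smul, add_zero] at this
    exact p0.prodMk_nhds (q1.prodMk_nhds q4)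
  have pk0 : ∀ᶠ x : ((Fin m → K) × Sq D b) × Col D b × Col D b × K in
      𝓝 ((c0, r0), 0, w0, 0), κ x.1.1 ≠ 0 := pk.eventually_ne hκ0
  filter_upwards [t1.eventually hC, t2.eventually hm, t3.eventually hC, pk0]
    with x k1 k2 k3 k4 hx
  have e1 : FF ch x.1.1 x.1.2 x.2.1 (κ x.1.1 • x.2.2.1) =
      FF ch x.1.1 x.1.2 x.2.1 x.2.2.1 + C x.1.1 := k1 hx
  have e2 : FF ch x.1.1 x.1.2
      (x.2.1 + (x.2.2.2 * (κ x.1.1)⁻¹) • (κ x.1.1 • x.2.2.1))
      (κ x.1.1 • x.2.2.1 + star (x.2.2.2 * (κ x.1.1)⁻¹) • (x.1.2ᴴ * x.2.1)) =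
      FF ch x.1.1 x.1.2 x.2.1 (κ x.1.1 • x.2.2.1) := (k2 hx).2
  have e3 : FF ch x.1.1 x.1.2 (x.2.1 + x.2.2.2 • x.2.2.1) (κ x.1.1 •
      (x.2.2.1 + star x.2.2.2 • (((κ x.1.1 * star (κ x.1.1))⁻¹ • x.1.2ᴴ) * x.2.1))) =
      FF ch x.1.1 x.1.2 (x.2.1 + x.2.2.2 • x.2.2.1)
        (x.2.2.1 + star x.2.2.2 • (((κ x.1.1 * star (κ x.1.1))⁻¹ • x.1.2ᴴ) * x.2.1)) +
        C x.1.1 := k3 hx
  clear k1 k2 k3
  have f1 : (x.2.2.2 * (κ x.1.1)⁻¹) • (κ x.1.1 • x.2.2.1) = x.2.2.2 • x.2.2.1 := by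
    rw [smul_smul, mul_assoc, inv_mul_cancel₀ k4, mul_one]
  have f2 : κ x.1.1 • (x.2.2.1 +
      star x.2.2.2 • (((κ x.1.1 * star (κ x.1.1))⁻¹ • x.1.2ᴴ) * x.2.1)) =
      κ x.1.1 • x.2.2.1 + star (x.2.2.2 * (κ x.1.1)⁻¹) • (x.1.2ᴴ * x.2.1) := by
    rw [smul_add, Matrix.smul_mul, smul_smul, smul_smul]
    congr 2
    have hs : star (κ x.1.1) ≠ 0 := star_ne_zero.2 k4
    rw [star_mul', star_inv₀]
    field_simp
  rw [f1, e1] at e2
  rw [f2, e2] at e3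
  exact (add_right_cancel e3).symm

/-- **Degree one.** -/
theorem lc_one' (hcont : Continuous (algebraMap K D)) (hspan : Spn D) (hK : SmK K)
    (hc : Chr K W ch) : LCp K W ch 1 := by
  intro b c0 r0 w0 hcop h
  have hr : ∀ (c : Fin 1 → K) (r : Sq D b), aeval r (Pc c) = 0 → r = (-(c 0)) • (1 : Sq D b) := by
    intro c r hcr
    rw [aeval_Pc] at hcr
    simp only [pow_one, Finset.univ_unique, Fin.default_eq_zero, Fin.isValue, Fin.val_eq_zero,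
      pow_zero, Finset.sum_singleton] at hcr
    rw [neg_smul]
    exact eq_neg_of_add_eq_zero_left hcr
  have hne : star (-(c0 0)) ≠ -(c0 0) := by
    intro h0
    rw [star_neg, neg_inj] at h0
    have h1 : sc c0 = c0 := by
      funext i
      rw [Subsingleton.elim i 0]; exact h0
    rw [h1, isCoprime_self] at hcop
    have h2 := natDegree_eq_zero_of_isUnit hcop
    rw [H640.natDegree_Pc] at h2
    exact one_ne_zero h2
  refine lc_moves hcont hspan hK hc h (fun x => x.2) (by fun_prop) ?_ ?_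
  · show IsUnit (r0 - r0ᴴ)
    rw [hr c0 r0 h.ann, conj_smul_one, ← sub_smul]
    have hd : -(c0 0) - star (-(c0 0)) ≠ 0 := sub_ne_zero.2 (Ne.symm hne)
    exact ⟨⟨(-(c0 0) - star (-(c0 0))) • 1, (-(c0 0) - star (-(c0 0)))⁻¹ • 1, by
      rw [Matrix.smul_mul, Matrix.mul_smul, Matrix.one_mul, smul_smul, mul_inv_cancel₀ hd,
        one_smul], by
      rw [Matrix.smul_mul, Matrix.mul_smul, Matrix.one_mul, smul_smul, inv_mul_cancel₀ hd,
        one_smul]⟩, rfl⟩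
  · have := contSMul hcont
    have hd := dm_near hcont hc h
    have t1 : Tendsto (fun x : ((Fin 1 → K) × Sq D b) × Col D b × Col D b × K =>
        (x.1, x.2.1, x.2.2.1)) (𝓝 ((c0, r0), 0, w0, 0)) (𝓝 ((c0, r0), 0, w0)) := by
      have : Continuous (fun x : ((Fin 1 → K) × Sq D b) × Col D b × Col D b × K =>
        (x.1, x.2.1, x.2.2.1)) := by fun_prop
      exact this.tendsto _
    have t2 : Tendsto (fun x : ((Fin 1 → K) × Sq D b) × Col D b × Col D b × K =>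
        (x.1, x.2.1 + x.2.2.2 • x.2.2.1, x.2.2.1 + star x.2.2.2 • (x.1.2 * x.2.1)))
        (𝓝 ((c0, r0), 0, w0, 0)) (𝓝 ((c0, r0), 0, w0)) := by
      have : Continuous (fun x : ((Fin 1 → K) × Sq D b) × Col D b × Col D b × K =>
        (x.1, x.2.1 + x.2.2.2 • x.2.2.1, x.2.2.1 + star x.2.2.2 • (x.1.2 * x.2.1))) := by
        fun_prop
      have h := this.tendsto ((c0, r0), 0, w0, 0)
      simpa using h
    filter_upwards [t1.eventually hd, t2.eventually hd] with x k1 k2 hx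
    obtain ⟨⟨c, r⟩, w1, w2, ν⟩ := x
    have hrr : r = (-(c 0)) • (1 : Sq D b) := hr c r hx
    subst hrr
    have d1 : Dm W c ((-(c 0)) • (1 : Sq D b)) w1 w2 := k1 hx
    have d2 : Dm W c ((-(c 0)) • (1 : Sq D b)) (w1 + ν • w2)
        (w2 + star ν • (((-(c 0)) • (1 : Sq D b)) * w1)) := k2 hx
    clear k1 k2
    obtain ⟨g1, g2⟩ := FF_conj hc d1
    obtain ⟨g3, g4⟩ := FF_conj hc d2
    have e : ((star (-(c 0)) • (1 : Sq D b)))ᴴ = (-(c 0)) • (1 : Sq D b) := by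
      rw [conj_smul_one, star_star]
    have g5 := FF_move hc g1 ν (by rw [e]; exact g3)
    rw [e, g2, g4] at g5
    exact neg_injective g5

/-- **Local constancy.** -/
theorem lc_all (hcont : Continuous (algebraMap K D)) (hspan : Spn D) (hK : SmK K)
    (hst : ∃ x : K, star x ≠ x) (hinf : {x : K | star x = x}.Infinite)
    (hc : Chr K W ch) (m : ℕ) : LCp K W ch (m + 1) := by
  induction m with
  | zero => exact lc_one' hcont hspan hK hc
  | succ m ih =>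
    intro b c0 r0 w0 hcop h
    obtain ⟨x0, hx0, hu, hv, huv, hn⟩ := H415.ex_x0 hst hinf c0 hcop
    obtain ⟨h', C, hC⟩ := comp_nr hcont hc ih (lc_one' hcont hspan hK hc) hcop h hx0 hu hv huv hn
    have hκ0 := kap_ne_zero hu hv huv
    have hκc := kap_cont hv huv
    have hκn := kap_norm_ne_one hu hv huv hn
    have H2 := h2_nr hcont hc (kap x0) hκc hκ0 h' hC
    have := contSMul hcont
    refine lc_moves hcont hspan hK hc h
      (fun x => (kap x0 x.1 * star (kap x0 x.1))⁻¹ • x.2ᴴ) ?_ ?_ H2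
    · have c1 : ContinuousAt (fun x : (Fin (m + 1 + 1) → K) × Sq D b => kap x0 x.1) (c0, r0) :=
        ContinuousAt.comp (g := kap (m := m + 1) x0)
          (f := fun x : (Fin (m + 1 + 1) → K) × Sq D b => x.1) hκc continuousAt_fst
      have c2 : ContinuousAt (fun x : (Fin (m + 1 + 1) → K) × Sq D b => x.2ᴴ) (c0, r0) := by
        fun_prop
      exact ((c1.mul c1.star).inv₀ (mul_ne_zero hκ0 (star_ne_zero.2 hκ0))).smul c2
    · show IsUnit ((kap x0 c0 * star (kap x0 c0))⁻¹ • r0ᴴ - r0ᴴ)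
      have e : (kap x0 c0 * star (kap x0 c0))⁻¹ • r0ᴴ - r0ᴴ =
          ((kap x0 c0 * star (kap x0 c0))⁻¹ - 1) • r0ᴴ := by rw [sub_smul, one_smul]
      rw [e]
      have hd : (kap x0 c0 * star (kap x0 c0))⁻¹ - 1 ≠ 0 := by
        rw [sub_ne_zero]
        intro h0
        exact hκn (inv_eq_one.1 h0)
      obtain ⟨v, hv'⟩ := isUnit_conj h.ru
      exact ⟨⟨((kap x0 c0 * star (kap x0 c0))⁻¹ - 1) • (v : Sq D b),
        ((kap x0 c0 * star (kap x0 c0))⁻¹ - 1)⁻¹ • ((v⁻¹ : (Sq D b)ˣ) : Sq D b), by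
        rw [Matrix.smul_mul, Matrix.mul_smul, smul_smul, mul_inv_cancel₀ hd, one_smul,
          Units.mul_inv], by
        rw [Matrix.smul_mul, Matrix.mul_smul, smul_smul, inv_mul_cancel₀ hd, one_smul,
          Units.inv_mul]⟩, by rw [← hv']⟩

end Vale.Agent.P011.H95.Odd
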