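import Vale.Agent.P011.H439.State
import Vale.Agent.P011.H275.Cmp

/-!
**The exchange with a companion template.** For a state `(c, r, v₁, v₂)` and a monic polynomial
`Pc c'` coprime to its conjugate, the state `(c, r, v₁, χ v₂)` with `χ = Pc (sc c') / Pc c'` at
`rᴴ` differs from `(c, r, v₁, v₂)` by a state on the companion matrix of `Pc c'`.
-/

open Matrix Polynomial Filter Topology
open Vale.Agent.P011.H439

set_option linter.unusedSectionVars false

namespace Vale.Agent.P011.H95.Odd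

open Vale.Agent.P011.H275.Cmp (eL phi)

section maps

variable {K D : Type*} [Field K] [StarRing K] [DivisionRing D] [StarRing D] [Algebra K D]
  [StarModule K D]

theorem star_alg (a : K) : star (algebraMap K D a) = algebraMap K D (star a) := by
  rw [Algebra.algebraMap_eq_smul_one, Algebra.algebraMap_eq_smul_one, star_smul, star_one]

theorem map_conj {p q : Type*} (M : Matrix p q K) :
    (M.map (algebraMap K D))ᴴ = Mᴴ.map (algebraMap K D) := by
  ext i j
  exact star_alg _

theorem map_mulD {p q s : Type*} [Fintype q] (M : Matrix p q K) (N : Matrix q s K) :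
    (M * N).map (algebraMap K D) = M.map (algebraMap K D) * N.map (algebraMap K D) :=
  Matrix.map_mul

theorem map_oneD {p : Type*} [DecidableEq p] :
    (1 : Matrix p p K).map (algebraMap K D) = 1 :=
  Matrix.map_one _ (map_zero _) (map_one _)

theorem map_inv2 {p : Type*} [Fintype p] [DecidableEq p] {M N : Matrix p p K}
    (h1 : M * N = 1) (h2 : N * M = 1) :
    Inv2 (M.map (algebraMap K D)) (N.map (algebraMap K D)) :=
  ⟨by rw [← map_mulD, h1, map_oneD], by rw [← map_mulD, h2, map_oneD]⟩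

theorem aeval_map {p : Type*} [Fintype p] [DecidableEq p] (M : Matrix p p K) (f : K[X]) :
    aeval (M.map (algebraMap K D)) f = (aeval M f).map (algebraMap K D) := by
  have := Polynomial.aeval_algHom_apply ((Algebra.ofId K D).mapMatrix (m := p)) M f
  exact this

end maps

section defs

variable {K : Type*} (D : Type*) [Field K] [StarRing K] [DivisionRing D] [StarRing D]
  [Algebra K D] {m b j : ℕ}

/-- The companion matrix over `D`. -/
abbrev tD (c' : Fin (j + 1) → K) : Sq D (j + 1) := (H275.Cmp.cmp c').map (algebraMap K D)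

variable (K) (j) in
/-- The last basis column over `D`. -/
abbrev eD : Col D (j + 1) := (eL (K := K) (m := j)).map (algebraMap K D)

variable {D}

/-- The intertwiner. -/
noncomputable def exq (c' : Fin (j + 1) → K) (r : Sq D b) (v2 : Col D b) :
    Matrix (Fin b) (Fin (j + 1)) D :=
  Matrix.of fun i k => -(rᴴ ^ (k : ℕ) * (Ring.inverse (aeval rᴴ (Pc c')) * v2)) i 0

/-- The new second column of the state. -/
noncomputable def exv (c' : Fin (j + 1) → K) (r : Sq D b) (v2 : Col D b) : Col D b :=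
  aeval rᴴ (Pc (sc c')) * (Ring.inverse (aeval rᴴ (Pc c')) * v2)

/-- The first column of the template state. -/
noncomputable def exw1 (c : Fin m → K) (c' : Fin (j + 1) → K) (r : Sq D b) (v1 v2 : Col D b) :
    Col D (j + 1) :=
  (exq c' r v2)ᴴ * Ring.inverse (aa c r v1 v2) * v1

/-- The second column of the template state. -/
noncomputable def exw2 (c : Fin m → K) (c' : Fin (j + 1) → K) (r : Sq D b) (v1 v2 : Col D b) :
    Col D (j + 1) :=
  eD K D j + (exq c' r v2)ᴴ * Ring.inverse (aa c r v1 v2) * v2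

end defs

section exch

variable {K D E : Type*} [Field K] [StarRing K] [DivisionRing D] [StarRing D] [Algebra K D]
  [StarModule K D] {m b j : ℕ}

/-- The Krylov matrix. -/
noncomputable def kry (j : ℕ) (ρ : Sq D b) (g : Col D b) : Matrix (Fin b) (Fin (j + 1)) D :=
  Matrix.of fun i k => -(ρ ^ (k : ℕ) * g) i 0

theorem kry_cmp (c' : Fin (j + 1) → K) (ρ : Sq D b) (g : Col D b) :
    kry j ρ g * tD D c' - ρ * kry j ρ g = (aeval ρ (Pc c') * g) * (eD K D j)ᴴ := by
  ext i k
  have hr : (ρ * kry j ρ g) i k = -(ρ ^ ((k : ℕ) + 1) * g) i 0 := by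
    rw [pow_succ', Matrix.mul_assoc, Matrix.mul_apply, Matrix.mul_apply, ← Finset.sum_neg_distrib]
    refine Finset.sum_congr rfl fun x _ => ?_
    simp [kry]
  rw [Matrix.sub_apply, hr]
  by_cases hk : k = Fin.last j
  · subst hk
    have h1 : (kry j ρ g * tD D c') i (Fin.last j) =
        ∑ l : Fin (j + 1), (c' l • ρ ^ (l : ℕ) * g) i 0 := by
      rw [Matrix.mul_apply]
      refine Finset.sum_congr rfl fun l _ => ?_
      simp only [kry, Matrix.of_apply, tD, Matrix.map_apply, H275.Cmp.cmp, if_true, map_neg,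
        neg_mul, mul_neg, neg_neg, Matrix.smul_mul, Matrix.smul_apply]
      rw [← Algebra.commutes, ← Algebra.smul_def]
    have h2 : ((aeval ρ (Pc c') * g) * (eD K D j)ᴴ) i (Fin.last j) =
        (aeval ρ (Pc c') * g) i 0 := by
      rw [Matrix.mul_apply]
      simp [eD, eL]
    rw [h1, h2, aeval_Pc, Matrix.add_mul, Matrix.add_apply, Matrix.sum_mul, Matrix.sum_apply,
      Fin.val_last]
    abel
  · have hlt : (k : ℕ) + 1 < j + 1 := by
      have := k.2
      have h' : (k : ℕ) ≠ j := fun h => hk (Fin.ext (by simp [h]))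
      omega
    have h1 : (kry j ρ g * tD D c') i k = -(ρ ^ ((k : ℕ) + 1) * g) i 0 := by
      rw [Matrix.mul_apply, Finset.sum_eq_single (⟨(k : ℕ) + 1, hlt⟩ : Fin (j + 1))]
      · simp [kry, tD, H275.Cmp.cmp, hk]
      · intro l _ hl
        have : (l : ℕ) ≠ (k : ℕ) + 1 := fun h => hl (Fin.ext h)
        simp [kry, tD, H275.Cmp.cmp, hk, this]
      · intro h; exact absurd (Finset.mem_univ _) h
    have h2 : ((aeval ρ (Pc c') * g) * (eD K D j)ᴴ) i k = 0 := by
      rw [Matrix.mul_apply]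
      simp [eD, eL, hk]
    rw [h1, h2, sub_self]

theorem kry_phi (c' : Fin (j + 1) → K) (ρ : Sq D b) (g : Col D b) :
    aeval ρ (Pc c') * g - kry j ρ g * (phi c').map (algebraMap K D) =
      aeval ρ (Pc (sc c')) * g := by
  ext i k
  obtain rfl : k = 0 := Subsingleton.elim _ _
  have h1 : (kry j ρ g * (phi c').map (algebraMap K D)) i 0 =
      ∑ l : Fin (j + 1), ((c' l • ρ ^ (l : ℕ) * g) i 0 - (sc c' l • ρ ^ (l : ℕ) * g) i 0) := by
    rw [Matrix.mul_apply]
    refine Finset.sum_congr rfl fun l _ => ?_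
    simp only [kry, Matrix.of_apply, Matrix.map_apply, phi, Matrix.smul_mul, Matrix.smul_apply,
      sc]
    rw [← Algebra.commutes, ← Algebra.smul_def, smul_neg, sub_smul, neg_sub]
  rw [Matrix.sub_apply, h1, aeval_Pc, aeval_Pc, Matrix.add_mul, Matrix.add_apply, Matrix.sum_mul,
    Matrix.sum_apply, Matrix.add_mul, Matrix.add_apply, Matrix.sum_mul, Matrix.sum_apply,
    Finset.sum_sub_distrib]
  abel

theorem c0_ne {c' : Fin (j + 1) → K} (hcop : IsCoprime (Pc c') (Pc (sc c'))) : c' 0 ≠ 0 := by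
  intro h0
  obtain ⟨u, w, h⟩ := hcop
  have h1 := congrArg (Polynomial.eval 0) h
  have h2 : ∀ d : Fin (j + 1) → K, (Pc d).eval 0 = d 0 := by
    intro d
    rw [Pc, Polynomial.eval_add, Polynomial.eval_pow, Polynomial.eval_X, zero_pow (by omega),
      zero_add, Polynomial.eval_finsetSum, Finset.sum_eq_single (0 : Fin (j + 1))]
    · simp
    · intro l _ hl
      have : (l : ℕ) ≠ 0 := fun h => hl (Fin.ext h)
      simp [this]
    · intro h; exact absurd (Finset.mem_univ _) h
  rw [Polynomial.eval_add, Polynomial.eval_mul, Polynomial.eval_mul, h2, h2, sc, h0, star_zero,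
    mul_zero, mul_zero, add_zero, Polynomial.eval_one] at h1
  exact zero_ne_one h1

end exch

section main

variable {K D E : Type*} [Field K] [StarRing K] [DivisionRing D] [StarRing D] [Algebra K D]
  [StarModule K D] [TopologicalSpace D] [AddCommGroup E] {m b j : ℕ}

theorem Chr.one {W : Set D} {ch : D → E} (hc : Chr K W ch) : ch 1 = 0 := by
  have := (hc.scal (1 : K) (by simp)).2
  rwa [map_one] at this

theorem Chr.star {W : Set D} {ch : D → E} (hc : Chr K W ch) {u : D} (hu : u ∈ W) :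
    ch (star u) = -ch u := by
  have h1 := hc.map u hu (Star.star u) (hc.inv u hu)
  rw [hc.unit u hu, Chr.one hc] at h1
  exact (neg_eq_of_add_eq_zero_right h1.symm).symm

/-- **The exchange.** -/
theorem exchange {W : Set D} {ch : D → E} (hc : Chr K W ch) {c : Fin m → K} {r : Sq D b}
    {v1 v2 : Col D b} {c' : Fin (j + 1) → K} (hv : Dm W c r v1 v2)
    (hv' : Dm W c r v1 (exv c' r v2)) (hu : IsUnit (aeval rᴴ (Pc c')))
    (hcop : IsCoprime (Pc c') (Pc (sc c'))) :
    Dm W c' (tD D c') (exw1 c c' r v1 v2) (exw2 c c' r v1 v2) ∧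
      FF ch c r v1 (exv c' r v2) =
        FF ch c r v1 v2 + FF ch c' (tD D c') (exw1 c c' r v1 v2) (exw2 c c' r v1 v2) := by
  obtain ⟨hann, a, ai, ha1, ha2, ha3, ha4, ha5⟩ := Vale.Agent.P011.H275.Cmp.companion c' hcop
  replace ha5 : ai * (eL (K := K) (m := j)) = phi c' := ha5
  obtain ⟨ti, ht1, ht2⟩ := Vale.Agent.P011.H275.Cmp.cmp_isUnit (c0_ne hcop)
  -- the template
  have hI : Inv2 (a.map (algebraMap K D)) (ai.map (algebraMap K D)) := map_inv2 ha1 ha2
  have hT : Inv2 (tD D c') (ti.map (algebraMap K D)) := map_inv2 ht1 ht2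
  have haK : aᴴ = -a := eq_neg_of_add_eq_zero_right ha3
  have hAt : AtB (tD D c') (0 : Col D (j + 1)) (eD K D j) (a.map (algebraMap K D)) := by
    refine ⟨?_, ?_⟩
    · rw [map_conj, haK]
      ext x y
      simp
    · have e1 : (a.map (algebraMap K D))ᴴ = -(a.map (algebraMap K D)) := by
        rw [map_conj, haK]
        ext x y
        simp
      have e2 : (a * H275.Cmp.cmp c' - (H275.Cmp.cmp c')ᴴ * a).map (algebraMap K D) =
          a.map (algebraMap K D) * tD D c' - (tD D c')ᴴ * a.map (algebraMap K D) := by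
        rw [Matrix.map_sub _ (map_sub _), map_mulD, map_mulD, map_conj]
      rw [e1, Matrix.mul_neg, ← sub_eq_add_neg, ← e2, ha4, map_mulD, map_conj]
  have hannD : aeval (tD D c') (Pc c') = 0 := by
    rw [aeval_map, show aeval (H275.Cmp.cmp c') (Pc c') = 0 from hann]
    ext x y
    simp
  have hcopD : IsUnit (aeval (tD D c') (Pc (sc c'))) := by
    obtain ⟨x, y, hxy⟩ := hcop
    have h1 := congrArg (aeval (tD D c')) hxy
    rw [map_add, map_mul, map_mul, hannD, mul_zero, zero_add, map_one] at h1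
    have h2 : aeval (tD D c') (Pc (sc c')) * aeval (tD D c') y = 1 := by
      rw [← h1, ← map_mul, ← map_mul, mul_comm]
    exact ⟨⟨_, _, h2, h1⟩, rfl⟩
  -- the intertwiner
  set g : Col D b := Ring.inverse (aeval rᴴ (Pc c')) * v2 with hg
  have hgv : aeval rᴴ (Pc c') * g = v2 := by
    rw [hg, ← Matrix.mul_assoc, Ring.mul_inverse_cancel _ hu, Matrix.one_mul]
  have hq : exq c' r v2 * tD D c' - rᴴ * exq c' r v2 =
      v2 * (eD K D j)ᴴ - rᴴ * (v1 * (0 : Col D (j + 1))ᴴ) := by
    have := kry_cmp c' rᴴ g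
    rw [hgv] at this
    rw [conjTranspose_zero, Matrix.mul_zero, Matrix.mul_zero, sub_zero]
    exact this
  have hphi : v2 - exq c' r v2 * ai.map (algebraMap K D) * eD K D j = exv c' r v2 := by
    have := kry_phi c' rᴴ g
    rw [hgv, ← ha5, map_mulD, ← Matrix.mul_assoc] at this
    exact this
  have hpv := aa_atB hv.ann hv.cop v1 v2
  have hpi := inv2_of hv.au
  have hri := inv2_of hv.ru
  -- the two new solutions
  have hS := AtB.exch hpv hAt hri hpi hq
  have hR := AtB.exch' hpv hAt hT hI hq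
  have z0 : (0 : Col D (j + 1)) * v1ᴴ - (exq c' r v2)ᴴ = -(exq c' r v2)ᴴ := by
    rw [Matrix.zero_mul, zero_sub]
  rw [z0] at hS hR
  rw [Matrix.mul_zero, sub_zero, hphi] at hR
  have hRe := aa_unique hv.ann hv.cop hR
  have hRi : Inv2 (aa c r v1 v2 - exq c' r v2 * ai.map (algebraMap K D) * -(exq c' r v2)ᴴ)
      (Ring.inverse (aa c r v1 (exv c' r v2))) := by
    rw [hRe]; exact inv2_of hv'.au
  obtain ⟨Si, hSi⟩ : ∃ Si, Inv2 (a.map (algebraMap K D) -
      -(exq c' r v2)ᴴ * Ring.inverse (aa c r v1 v2) * exq c' r v2) Si :=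
    ⟨_, inv2_schur (p := a.map (algebraMap K D)) (t := aa c r v1 v2)
      (q := -(exq c' r v2)ᴴ) (s := exq c' r v2) hI hpi hRi⟩
  have hw1 : (0 : Col D (j + 1)) - -(exq c' r v2)ᴴ * Ring.inverse (aa c r v1 v2) * v1 =
      exw1 c c' r v1 v2 := by
    rw [exw1, zero_sub, Matrix.neg_mul, Matrix.neg_mul, neg_neg]
  have hw2 : eD K D j - -(exq c' r v2)ᴴ * Ring.inverse (aa c r v1 v2) * v2 =
      exw2 c c' r v1 v2 := by
    rw [exw2, Matrix.neg_mul, Matrix.neg_mul, sub_neg_eq_add]
  rw [hw1, hw2] at hS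
  have hSe := aa_unique hannD hcopD hS
  have hSu : IsUnit (aa c' (tD D c') (exw1 c c' r v1 v2) (exw2 c c' r v1 v2)) := by
    rw [← hSe]; exact isUnit_of_inv2 hSi
  -- the values
  have g1 := uu_exch_one (q := exq c' r v2) hpv hAt hpi hI
    (Si := Si) (Ri := Ring.inverse (aa c r v1 (exv c' r v2)))
    (by rw [z0]; exact hSi) (by rw [z0]; exact hRi)
  have g2 := uu_exch_two (q := exq c' r v2) hpv hAt hri hT hpi hI hq
    (Si := Si) (Ri := Ring.inverse (aa c r v1 (exv c' r v2)))
    (by rw [z0]; exact hSi) (by rw [z0]; exact hRi)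
  rw [z0, hw1, uu_zero, Matrix.one_mul, Matrix.mul_zero, sub_zero] at g1
  rw [z0, hw2, hphi] at g2
  have h1 := congrFun (congrFun g1 0) 0
  have h2 := congrFun (congrFun g2 0) 0
  rw [mul00] at h1
  rw [mul00, mul00] at h2
  have e1 : u1 c' (tD D c') (exw1 c c' r v1 v2) (exw2 c c' r v1 v2) =
      uu (exw1 c c' r v1 v2) Si 0 0 := u1_eq hannD hcopD hS hSi
  have e2 : u2 c' (tD D c') (exw1 c c' r v1 v2) (exw2 c c' r v1 v2) =
      uu (exw2 c c' r v1 v2) (ti.map (algebraMap K D) * Si) 0 0 := u2_eq hannD hcopD hS hSi hT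
  have f1 : u1 c r v1 v2 * u1 c' (tD D c') (exw1 c c' r v1 v2) (exw2 c c' r v1 v2) =
      u1 c r v1 (exv c' r v2) := by
    rw [e1]; exact h1
  -- the scalar
  set sK : K := uu (eL (K := K) (m := j)) (ti * ai) 0 0 with hsK
  have hs1 : sK * star sK = 1 := by
    have hA : a * H275.Cmp.cmp c' + (a * H275.Cmp.cmp c')ᴴ = (eL (K := K) (m := j)) * (eL (K := K) (m := j))ᴴ := by
      rw [← ha4, conjTranspose_mul, haK, Matrix.mul_neg, sub_eq_add_neg]
    have h := uu_mul_conj hA
      ((show Inv2 a ai from ⟨ha1, ha2⟩).mul' (show Inv2 (H275.Cmp.cmp c') ti from ⟨ht1, ht2⟩))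
    have h0 := congrFun (congrFun h 0) 0
    rwa [mul00, star00] at h0
  have hsD : uu (eD K D j) (ti.map (algebraMap K D) * ai.map (algebraMap K D)) 0 0 =
      algebraMap K D sK := by
    rw [hsK, uu, uu, map_conj, ← map_mulD, ← map_mulD, ← map_mulD, Matrix.sub_apply,
      Matrix.sub_apply, map_sub]
    simp
  have f2 : u2 c r v1 v2 * u2 c' (tD D c') (exw1 c c' r v1 v2) (exw2 c c' r v1 v2) =
      algebraMap K D sK * u2 c r v1 (exv c' r v2) := by
    rw [e2, ← hsD]; exact h2
  obtain ⟨hsW, hs0⟩ := hc.scal sK hs1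
  -- solve for the values at the template
  have k1 : u1 c' (tD D c') (exw1 c c' r v1 v2) (exw2 c c' r v1 v2) =
      star (u1 c r v1 v2) * u1 c r v1 (exv c' r v2) := by
    have hst : star (u1 c r v1 v2) * u1 c r v1 v2 = 1 := by
      have h := hc.unit _ (hc.inv _ hv.m1)
      rwa [star_star] at h
    rw [← f1, ← mul_assoc, hst, one_mul]
  have k2 : u2 c' (tD D c') (exw1 c c' r v1 v2) (exw2 c c' r v1 v2) =
      star (u2 c r v1 v2) * (algebraMap K D sK * u2 c r v1 (exv c' r v2)) := by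
    have hst : star (u2 c r v1 v2) * u2 c r v1 v2 = 1 := by
      have h := hc.unit _ (hc.inv _ hv.m2)
      rwa [star_star] at h
    rw [← f2, ← mul_assoc, hst, one_mul]
  refine ⟨⟨hannD, hcopD, isUnit_of_inv2 hT, hSu, ?_, ?_⟩, ?_⟩
  · rw [k1]; exact hc.mul _ (hc.inv _ hv.m1) _ hv'.m1
  · rw [k2]; exact hc.mul _ (hc.inv _ hv.m2) _ (hc.mul _ hsW _ hv'.m2)
  · have l1 : ch (u1 c' (tD D c') (exw1 c c' r v1 v2) (exw2 c c' r v1 v2)) =
        -ch (u1 c r v1 v2) + ch (u1 c r v1 (exv c' r v2)) := by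
      rw [k1, hc.map _ (hc.inv _ hv.m1) _ hv'.m1, Chr.star hc hv.m1]
    have l2 : ch (u2 c' (tD D c') (exw1 c c' r v1 v2) (exw2 c c' r v1 v2)) =
        -ch (u2 c r v1 v2) + ch (u2 c r v1 (exv c' r v2)) := by
      rw [k2, hc.map _ (hc.inv _ hv.m2) _ (hc.mul _ hsW _ hv'.m2), hc.map _ hsW _ hv'.m2, hs0,
        zero_add, Chr.star hc hv.m2]
    rw [FF, FF, FF, l1, l2]
    abel

end main

end Vale.Agent.P011.H95.Odd
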