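import Mathlib

/-!
**Blocks.** The unitary matrices `1 - yᴴ a⁻¹ y` attached to a column block `y` and a square
matrix `a` with `a + aᴴ = y yᴴ`, over any ring with involution, and the two exact identities
between them (rectangular form).
-/

open Matrix

set_option linter.unusedSectionVars false

namespace Vale.Agent.P011.H95.Odd

section defs

variable {D : Type*} [Ring D] [StarRing D] {m : Type*} [Fintype m] [DecidableEq m]

/-- a two-sided inverse -/
structure Inv2 (a ai : Matrix m m D) : Prop where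
  mul : a * ai = 1
  inv : ai * a = 1

variable {a b ai bi : Matrix m m D} {c : Type*} [Fintype c] [DecidableEq c]

theorem Inv2.symm (h : Inv2 a ai) : Inv2 ai a := ⟨h.inv, h.mul⟩

theorem Inv2.one : Inv2 (1 : Matrix m m D) 1 := ⟨by simp, by simp⟩

theorem Inv2.cancel_left (h : Inv2 a ai) (x : Matrix m c D) : a * (ai * x) = x := by
  rw [← Matrix.mul_assoc, h.mul, Matrix.one_mul]

theorem Inv2.cancel_left' (h : Inv2 a ai) (x : Matrix m c D) : ai * (a * x) = x := by
  rw [← Matrix.mul_assoc, h.inv, Matrix.one_mul]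

theorem Inv2.cancel_right (h : Inv2 a ai) (x : Matrix c m D) : x * a * ai = x := by
  rw [Matrix.mul_assoc, h.mul, Matrix.mul_one]

theorem Inv2.cancel_right' (h : Inv2 a ai) (x : Matrix c m D) : x * ai * a = x := by
  rw [Matrix.mul_assoc, h.inv, Matrix.mul_one]

theorem Inv2.conj (h : Inv2 a ai) : Inv2 aᴴ aiᴴ :=
  ⟨by rw [← conjTranspose_mul, h.inv, conjTranspose_one],
    by rw [← conjTranspose_mul, h.mul, conjTranspose_one]⟩

theorem Inv2.mul' (h : Inv2 a ai) (h' : Inv2 b bi) : Inv2 (a * b) (bi * ai) :=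
  ⟨by rw [Matrix.mul_assoc, ← Matrix.mul_assoc b, h'.mul, Matrix.one_mul, h.mul],
    by rw [Matrix.mul_assoc, ← Matrix.mul_assoc ai, h.inv, Matrix.one_mul, h'.inv]⟩

theorem Inv2.unique (h : Inv2 a ai) (h' : Inv2 a bi) : ai = bi := by
  have : ai * (a * bi) = bi := h.cancel_left' bi
  rwa [h'.mul, Matrix.mul_one] at this

theorem Inv2.neg (h : Inv2 a ai) : Inv2 (-a) (-ai) :=
  ⟨by rw [neg_mul_neg, h.mul], by rw [neg_mul_neg, h.inv]⟩

/-- The unitary matrix attached to `y` and `a` with `a + aᴴ = y yᴴ` (`ai` is the inverse of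
`a`). -/
def uu (y : Matrix m c D) (ai : Matrix m m D) : Matrix c c D := 1 - yᴴ * ai * y

@[simp] theorem uu_zero (ai : Matrix m m D) : uu (0 : Matrix m c D) ai = 1 := by simp [uu]

theorem conj_uu (y : Matrix m c D) (ai : Matrix m m D) : (uu y ai)ᴴ = uu y aiᴴ := by
  simp only [uu, conjTranspose_sub, conjTranspose_one, conjTranspose_mul,
    conjTranspose_conjTranspose, Matrix.mul_assoc]

/-- The matrix is unitary. -/
theorem uu_mul_conj {y : Matrix m c D} (h : a + aᴴ = y * yᴴ) (hi : Inv2 a ai) :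
    uu y ai * (uu y ai)ᴴ = 1 := by
  have h1 : ai * (y * yᴴ) * aiᴴ = aiᴴ + ai := by
    rw [← h, Matrix.mul_add, Matrix.add_mul, hi.inv, Matrix.one_mul, Matrix.mul_assoc,
      hi.conj.mul, Matrix.mul_one]
  rw [conj_uu, uu, uu]
  have h2 : (1 - yᴴ * ai * y) * (1 - yᴴ * aiᴴ * y) =
      1 - yᴴ * ai * y - yᴴ * aiᴴ * y + yᴴ * (ai * (y * yᴴ) * aiᴴ) * y := by
    simp only [Matrix.mul_sub, Matrix.sub_mul, Matrix.mul_one, Matrix.one_mul, Matrix.mul_assoc]
    abel
  rw [h2, h1]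
  simp only [Matrix.mul_add, Matrix.add_mul]
  abel

theorem conj_mul_uu {y : Matrix m c D} (h : a + aᴴ = y * yᴴ) (hi : Inv2 a ai) :
    (uu y ai)ᴴ * uu y ai = 1 := by
  have h2 : aᴴ + aᴴᴴ = y * yᴴ := by rw [conjTranspose_conjTranspose, add_comm, h]
  have h3 := uu_mul_conj h2 hi.conj
  rwa [conj_uu, conjTranspose_conjTranspose, ← conj_uu] at h3

theorem inv2_uu {y : Matrix m c D} (h : a + aᴴ = y * yᴴ) (hi : Inv2 a ai) :
    Inv2 (uu y ai) (uu y ai)ᴴ := ⟨uu_mul_conj h hi, conj_mul_uu h hi⟩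

/-- Unitary factors on the right. -/
theorem uu_mul_right {u : Matrix c c D} (hu : uᴴ * u = 1) (y : Matrix m c D) (ai : Matrix m m D) :
    uu (y * u) ai = uᴴ * uu y ai * u := by
  simp only [uu, conjTranspose_mul, Matrix.mul_sub, Matrix.sub_mul, Matrix.mul_one, hu,
    Matrix.mul_assoc]

/-- Left multiplication. -/
theorem uu_mul_left {g gi : Matrix m m D} (hg : Inv2 g gi) (y : Matrix m c D)
    (ai : Matrix m m D) : uu (g * y) (giᴴ * ai * gi) = uu y ai := by
  simp only [uu, conjTranspose_mul, Matrix.mul_assoc]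
  rw [hg.cancel_left' y, hg.conj.cancel_left (ai * y)]

theorem inv2_mul_left {g gi : Matrix m m D} (hg : Inv2 g gi) (hi : Inv2 a ai) :
    Inv2 (g * a * gᴴ) (giᴴ * ai * gi) := by
  have := (hg.mul' hi).mul' hg.conj
  rwa [← Matrix.mul_assoc] at this

/-- The pair `(y₁, y₂)` at `r` and its scalar `a`. -/
structure AtB (r : Matrix m m D) (y1 y2 : Matrix m c D) (a : Matrix m m D) : Prop where
  one : a + aᴴ = y1 * y1ᴴ
  two : a * r + rᴴ * aᴴ = y2 * y2ᴴ

end defs

section at_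

variable {D : Type*} [Ring D] [StarRing D] {m : Type*} [Fintype m] [DecidableEq m]
  {c : Type*} [Fintype c] [DecidableEq c]
  {r ri a ai z zi g gi : Matrix m m D} {y1 y2 : Matrix m c D} {u v : Matrix c c D}

theorem AtB.two' (h : AtB r y1 y2 a) : a * r + (a * r)ᴴ = y2 * y2ᴴ := by
  rw [conjTranspose_mul]; exact h.two

theorem AtB.syl (h : AtB r y1 y2 a) :
    a * r - rᴴ * a = y2 * y2ᴴ - rᴴ * (y1 * y1ᴴ) := by
  rw [← h.two, ← h.one, Matrix.mul_add]; abel

theorem AtB.zero : AtB r (0 : Matrix m c D) 0 0 := ⟨by simp, by simp⟩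

/-- The Sylvester equation is enough. -/
theorem atB_of_syl (hr : ∀ x : Matrix m m D, x * r = rᴴ * x → x = 0)
    (h : a * r - rᴴ * a = y2 * y2ᴴ - rᴴ * (y1 * y1ᴴ)) : AtB r y1 y2 a := by
  have h3 : a * r = rᴴ * a + (y2 * y2ᴴ - rᴴ * (y1 * y1ᴴ)) := by rw [← h]; abel
  have h1 : a + aᴴ = y1 * y1ᴴ := by
    have h2 := congrArg conjTranspose h
    simp only [conjTranspose_sub, conjTranspose_mul, conjTranspose_conjTranspose] at h2
    rw [← sub_eq_zero]
    refine hr _ ?_
    have h4 : aᴴ * r = rᴴ * aᴴ - (y2 * y2ᴴ - y1 * y1ᴴ * r) := by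
      rw [← h2]; abel
    rw [Matrix.sub_mul, Matrix.add_mul, h3, h4]
    simp only [Matrix.mul_sub, Matrix.mul_add]
    abel
  refine ⟨h1, ?_⟩
  have h5 : aᴴ = y1 * y1ᴴ - a := by rw [← h1]; abel
  rw [h5, h3, Matrix.mul_sub]
  abel

theorem AtB.unique (hr : ∀ x : Matrix m m D, x * r = rᴴ * x → x = 0) {a' : Matrix m m D}
    (h : AtB r y1 y2 a) (h' : AtB r y1 y2 a') : a = a' := by
  rw [← sub_eq_zero]
  refine hr _ ?_
  have h1 := h.syl
  rw [← h'.syl] at h1
  have h2 : (a - a') * r - rᴴ * (a - a') = (a * r - rᴴ * a) - (a' * r - rᴴ * a') := by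
    rw [Matrix.sub_mul, Matrix.mul_sub]; abel
  rw [h1, sub_self, sub_eq_zero] at h2
  exact h2

/-- Unitary factors on the right. -/
theorem AtB.mul_right (h : AtB r y1 y2 a) (hu : u * uᴴ = 1) (hv : v * vᴴ = 1) :
    AtB r (y1 * u) (y2 * v) a := by
  refine ⟨?_, ?_⟩
  · rw [conjTranspose_mul, Matrix.mul_assoc, ← Matrix.mul_assoc u, hu, Matrix.one_mul, h.one]
  · rw [conjTranspose_mul, Matrix.mul_assoc, ← Matrix.mul_assoc v, hv, Matrix.one_mul, h.two]

/-- Left multiplication. -/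
theorem AtB.mul_left (hg : Inv2 g gi) (h : AtB (gᴴ * r * giᴴ) y1 y2 a) :
    AtB r (g * y1) (g * y2) (g * a * gᴴ) := by
  have e1 : g * a * gᴴ * r = g * (a * (gᴴ * r * giᴴ)) * gᴴ := by
    simp only [Matrix.mul_assoc]
    rw [hg.conj.inv, Matrix.mul_one]
  refine ⟨?_, ?_⟩
  · have : g * a * gᴴ + (g * a * gᴴ)ᴴ = g * (a + aᴴ) * gᴴ := by
      simp only [conjTranspose_mul, conjTranspose_conjTranspose, Matrix.mul_add, Matrix.add_mul,
        Matrix.mul_assoc]
    rw [this, h.one]; simp only [conjTranspose_mul, Matrix.mul_assoc]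
  · have h2 := h.two'
    have e2 : rᴴ * (g * a * gᴴ)ᴴ = (g * a * gᴴ * r)ᴴ := by
      simp only [conjTranspose_mul]
    rw [e2, e1]
    have : g * (a * (gᴴ * r * giᴴ)) * gᴴ + (g * (a * (gᴴ * r * giᴴ)) * gᴴ)ᴴ =
        g * (a * (gᴴ * r * giᴴ) + (a * (gᴴ * r * giᴴ))ᴴ) * gᴴ := by
      simp only [conjTranspose_mul, conjTranspose_conjTranspose, Matrix.mul_add, Matrix.add_mul,
        Matrix.mul_assoc]
    rw [this, h2]; simp only [conjTranspose_mul, Matrix.mul_assoc]

/-- The scalar of the moved pair. -/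
def mzB (r : Matrix m m D) (y1 y2 : Matrix m c D) (a : Matrix m m D) : Matrix m m D :=
  a + rᴴ * aᴴ + y2 * y1ᴴ

theorem AtB.move (h : AtB r y1 y2 a) : AtB r (y1 + y2) (rᴴ * y1 + y2) (mzB r y1 y2 a) := by
  have h1 := h.one
  have h2 := h.two
  refine ⟨?_, ?_⟩
  · have : mzB r y1 y2 a + (mzB r y1 y2 a)ᴴ =
        (a + aᴴ) + (a * r + rᴴ * aᴴ) + y2 * y1ᴴ + y1 * y2ᴴ := by
      simp only [mzB, conjTranspose_add, conjTranspose_mul, conjTranspose_conjTranspose]; abel
    rw [this, h1, h2]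
    simp only [conjTranspose_add, Matrix.mul_add, Matrix.add_mul]; abel
  · have : mzB r y1 y2 a * r + rᴴ * (mzB r y1 y2 a)ᴴ =
        rᴴ * (a + aᴴ) * r + (a * r + rᴴ * aᴴ) + y2 * y1ᴴ * r + rᴴ * y1 * y2ᴴ := by
      simp only [mzB, conjTranspose_add, conjTranspose_mul, conjTranspose_conjTranspose,
        Matrix.mul_add, Matrix.add_mul, Matrix.mul_assoc]; abel
    rw [this, h1, h2]
    simp only [conjTranspose_add, conjTranspose_mul, conjTranspose_conjTranspose,
      Matrix.mul_add, Matrix.add_mul, Matrix.mul_assoc]; abel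

/-- **The first identity.** -/
theorem uu_moveB (h : AtB r y1 y2 a) (hr : Inv2 r ri) (ha : Inv2 a ai)
    (hz : Inv2 (mzB r y1 y2 a) zi) :
    uu (rᴴ * y1 + y2) (ri * zi) * uu y1 ai = uu y2 (ri * ai) * uu (y1 + y2) zi := by
  set z := mzB r y1 y2 a with hzd
  have h1 := h.one
  have h2 := h.two
  have l1 : (rᴴ * y1 + y2) * y1ᴴ = z - a + rᴴ * a := by
    have : (rᴴ * y1 + y2) * y1ᴴ = rᴴ * (y1 * y1ᴴ) + y2 * y1ᴴ := by
      rw [Matrix.add_mul, Matrix.mul_assoc]
    rw [this, ← h1, hzd, mzB, Matrix.mul_add]; abel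
  have l2 : y2 * (y1 + y2)ᴴ = z - a + a * r := by
    have : y2 * (y1 + y2)ᴴ = y2 * y1ᴴ + y2 * y2ᴴ := by
      rw [conjTranspose_add, Matrix.mul_add]
    rw [this, ← h2, hzd, mzB]; abel
  -- left
  have e1 : (rᴴ * y1 + y2) * uu y1 ai = (y1 + y2) - z * (ai * y1) := by
    have : (rᴴ * y1 + y2) * uu y1 ai =
        (rᴴ * y1 + y2) - ((rᴴ * y1 + y2) * y1ᴴ) * (ai * y1) := by
      rw [uu, Matrix.mul_sub, Matrix.mul_one]
      simp only [Matrix.mul_assoc]
    rw [this, l1]
    have : (z - a + rᴴ * a) * (ai * y1) = z * (ai * y1) - y1 + rᴴ * y1 := by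
      rw [Matrix.add_mul, Matrix.sub_mul, ha.cancel_left, Matrix.mul_assoc, ha.cancel_left]
    rw [this]; abel
  have e2 : (rᴴ * y1 + y2)ᴴ * (ri * zi) = y1ᴴ * zi + y2ᴴ * (ri * zi) := by
    rw [conjTranspose_add, conjTranspose_mul, conjTranspose_conjTranspose, Matrix.add_mul,
      Matrix.mul_assoc, hr.cancel_left]
  have e3 : uu (rᴴ * y1 + y2) (ri * zi) * uu y1 ai =
      uu y1 ai - (y1ᴴ * zi + y2ᴴ * (ri * zi)) * ((y1 + y2) - z * (ai * y1)) := by
    rw [← e1, ← e2]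
    rw [uu, Matrix.sub_mul, Matrix.one_mul, Matrix.mul_assoc]
  have e4 : (y1ᴴ * zi + y2ᴴ * (ri * zi)) * ((y1 + y2) - z * (ai * y1)) =
      y1ᴴ * (zi * (y1 + y2)) + y2ᴴ * (ri * (zi * (y1 + y2))) - y1ᴴ * (ai * y1) -
        y2ᴴ * (ri * (ai * y1)) := by
    simp only [Matrix.mul_sub, Matrix.add_mul, Matrix.mul_assoc]
    rw [hz.cancel_left', ]
    abel
  -- right
  have e5 : uu y2 (ri * ai) * uu (y1 + y2) zi =
      uu (y1 + y2) zi - y2ᴴ * (ri * (ai * y2)) +
        y2ᴴ * (ri * (ai * ((y2 * (y1 + y2)ᴴ) * (zi * (y1 + y2))))) := by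
    simp only [uu, Matrix.mul_sub, Matrix.sub_mul, Matrix.one_mul, Matrix.mul_one,
      Matrix.mul_assoc]
    abel
  have e6 : ri * (ai * ((z - a + a * r) * (zi * (y1 + y2)))) =
      ri * (ai * (y1 + y2)) - ri * (zi * (y1 + y2)) + zi * (y1 + y2) := by
    rw [Matrix.add_mul, Matrix.sub_mul, hz.cancel_left, Matrix.mul_add, Matrix.mul_sub,
      ha.cancel_left', Matrix.mul_assoc, ha.cancel_left', Matrix.mul_add, Matrix.mul_sub,
      hr.cancel_left']
  rw [e3, e4, e5, l2, e6]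
  simp only [uu, conjTranspose_add, Matrix.mul_sub, Matrix.mul_add, Matrix.add_mul,
    Matrix.mul_assoc]
  abel

end at_

end Vale.Agent.P011.H95.Odd

namespace Vale.Agent.P011.H95.Odd

section exch

variable {D : Type*} [Ring D] [StarRing D] {m m' : Type*} [Fintype m] [DecidableEq m]
  [Fintype m'] [DecidableEq m'] {c : Type*} [Fintype c] [DecidableEq c]
  {p pi : Matrix m m D} {t ti : Matrix m' m' D} {q : Matrix m m' D} {s : Matrix m' m D}
  {v : Matrix m c D} {w : Matrix m' c D}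

/-- The complement of `p` is again attached to the complement of the column. -/
theorem schurB (hp : p + pᴴ = v * vᴴ) (ht : t + tᴴ = w * wᴴ) (hq : q + sᴴ = v * wᴴ)
    (hpi : Inv2 p pi) :
    (t - s * pi * q) + (t - s * pi * q)ᴴ = (w - s * pi * v) * (w - s * pi * v)ᴴ := by
  have hq' : qᴴ + s = w * vᴴ := by
    have := congrArg conjTranspose hq
    simpa only [conjTranspose_add, conjTranspose_mul, conjTranspose_conjTranspose] using this
  have h1 : s * pi * (v * vᴴ) * (piᴴ * sᴴ) = s * (piᴴ * sᴴ) + s * (pi * sᴴ) := by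
    rw [← hp, Matrix.mul_add, hpi.cancel_right' s, Matrix.add_mul]
    congr 1
    rw [Matrix.mul_assoc, hpi.conj.cancel_left sᴴ, Matrix.mul_assoc]
  have h2 : (w - s * pi * v) * (w - s * pi * v)ᴴ =
      w * wᴴ - (w * vᴴ) * (piᴴ * sᴴ) - s * pi * (v * wᴴ) + s * pi * (v * vᴴ) * (piᴴ * sᴴ) := by
    simp only [conjTranspose_sub, conjTranspose_mul, Matrix.mul_sub, Matrix.sub_mul,
      Matrix.mul_assoc]
    abel
  rw [h2, h1, ← ht, ← hq, ← hq']
  simp only [conjTranspose_sub, conjTranspose_mul, Matrix.mul_add, Matrix.add_mul,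
    Matrix.mul_assoc]
  abel

/-- The complement of `t` in terms of the complement of `p`. -/
theorem inv2_schur {Si : Matrix m' m' D} (hpi : Inv2 p pi) (hti : Inv2 t ti)
    (hS : Inv2 (t - s * pi * q) Si) :
    Inv2 (p - q * ti * s) (pi + pi * q * Si * s * pi) := by
  have hs1 : s * pi * q = t - (t - s * pi * q) := by abel
  have hs1' : s * (pi * q) = t - (t - s * (pi * q)) := by abel
  set S := t - s * pi * q with hSd
  have e1 : s * (pi * (q * (Si * (s * pi)))) = t * (Si * (s * pi)) - s * pi := by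
    have : s * (pi * (q * (Si * (s * pi)))) = (s * pi * q) * (Si * (s * pi)) := by
      simp only [Matrix.mul_assoc]
    rw [this, hs1, Matrix.sub_mul, hS.cancel_left]
  have e2 : pi * (q * (Si * (s * (pi * (q * (ti * s)))))) =
      pi * (q * (Si * s)) - pi * (q * (ti * s)) := by
    have : s * (pi * (q * (ti * s))) = (s * pi * q) * (ti * s) := by
      simp only [Matrix.mul_assoc]
    rw [this, hs1, Matrix.sub_mul, hti.cancel_left, Matrix.mul_sub, hS.cancel_left',
      Matrix.mul_sub, Matrix.mul_sub]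
  constructor
  · have : (p - q * ti * s) * (pi + pi * q * Si * s * pi) =
        p * pi + p * (pi * (q * (Si * (s * pi)))) - q * (ti * (s * pi)) -
          q * (ti * (s * (pi * (q * (Si * (s * pi)))))) := by
      simp only [Matrix.mul_add, Matrix.sub_mul, Matrix.mul_assoc]; abel
    rw [this, e1, hpi.cancel_left, hpi.mul, Matrix.mul_sub, hti.cancel_left', Matrix.mul_sub]
    abel
  · have : (pi + pi * q * Si * s * pi) * (p - q * ti * s) =
        pi * p + pi * (q * (Si * (s * (pi * p)))) - pi * (q * (ti * s)) -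
          pi * (q * (Si * (s * (pi * (q * (ti * s)))))) := by
      simp only [Matrix.add_mul, Matrix.mul_sub, Matrix.mul_assoc]; abel
    rw [this, e2, hpi.inv, Matrix.mul_one]
    abel

/-- The two complements give the same unitary matrix. -/
theorem uu_pair {Si : Matrix m' m' D} (hp : p + pᴴ = v * vᴴ) (hq : q + sᴴ = v * wᴴ)
    (hpi : Inv2 p pi) :
    uu v pi * uu (w - s * pi * v) Si =
      1 - (vᴴ * pi * v + (wᴴ - vᴴ * pi * q) * Si * (w - s * pi * v)) := by
  have h1 : v * wᴴ - v * vᴴ * piᴴ * sᴴ = q - p * (piᴴ * sᴴ) := by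
    rw [← hp, ← hq, Matrix.add_mul, Matrix.add_mul]
    have : pᴴ * piᴴ * sᴴ = sᴴ := by rw [hpi.conj.mul, Matrix.one_mul]
    rw [this, Matrix.mul_assoc]; abel
  have h2 : uu v pi * (wᴴ - vᴴ * piᴴ * sᴴ) = wᴴ - vᴴ * pi * q := by
    have : uu v pi * (wᴴ - vᴴ * piᴴ * sᴴ) =
        wᴴ - vᴴ * piᴴ * sᴴ - vᴴ * (pi * (v * wᴴ - v * vᴴ * piᴴ * sᴴ)) := by
      simp only [uu, Matrix.mul_sub, Matrix.sub_mul, Matrix.one_mul, Matrix.mul_assoc]
      abel
    rw [this, h1, Matrix.mul_sub, hpi.cancel_left']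
    simp only [Matrix.mul_sub, Matrix.mul_assoc]
    abel
  have h3 : uu v pi * uu (w - s * pi * v) Si =
      uu v pi - (uu v pi * (wᴴ - vᴴ * piᴴ * sᴴ)) * Si * (w - s * pi * v) := by
    rw [show uu (w - s * pi * v) Si = 1 - (w - s * pi * v)ᴴ * Si * (w - s * pi * v) from rfl,
      Matrix.mul_sub, Matrix.mul_one]
    simp only [conjTranspose_sub, conjTranspose_mul, Matrix.mul_assoc]
  rw [h3, h2, uu]
  abel

/-- The inverse of a block matrix, in the two orders of elimination. -/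
theorem schur_eq {Si : Matrix m' m' D} {Ti : Matrix m m D} (hpi : Inv2 p pi) (hti : Inv2 t ti)
    (hS : Inv2 (t - s * pi * q) Si) (hT : Inv2 (p - q * ti * s) Ti)
    (x : Matrix c m D) (x' : Matrix c m' D) (v : Matrix m c D) (w : Matrix m' c D) :
    x * pi * v + (x' - x * pi * q) * Si * (w - s * pi * v) =
      x' * ti * w + (x - x' * ti * s) * Ti * (v - q * ti * w) := by
  have hTi : Ti = pi + pi * q * Si * s * pi := hT.unique (inv2_schur hpi hti hS)
  have hSi : Si = ti + ti * s * Ti * q * ti := hS.unique (inv2_schur hti hpi hT)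
  have e1 : pi * (q * Si) = Ti * (q * ti) := by
    have h1 : (p - q * ti * s) * (pi * (q * Si)) = q * Si - q * (ti * (s * (pi * (q * Si)))) := by
      rw [Matrix.sub_mul, hpi.cancel_left]; simp only [Matrix.mul_assoc]
    have h2 : s * (pi * (q * Si)) = t * Si - 1 := by
      have : s * (pi * (q * Si)) = t * Si - (t - s * pi * q) * Si := by
        simp only [Matrix.sub_mul, Matrix.mul_assoc]; abel
      rw [this, hS.mul]
    rw [h2, Matrix.mul_sub, hti.cancel_left', Matrix.mul_one, Matrix.mul_sub] at h1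
    have h3 : pi * (q * Si) = Ti * ((p - q * ti * s) * (pi * (q * Si))) :=
      (hT.cancel_left' _).symm
    rw [h3, h1]; congr 1; abel
  have e2 : Si * (s * pi) = ti * (s * Ti) := by
    have h1 : (Si * (s * pi)) * (p - q * ti * s) = Si * s - Si * (s * (pi * (q * (ti * s)))) := by
      rw [Matrix.mul_sub]; simp only [Matrix.mul_assoc]; rw [hpi.inv, Matrix.mul_one]
    have h2 : Si * (s * (pi * (q * (ti * s)))) = Si * s - ti * s := by
      have : Si * (s * (pi * (q * (ti * s)))) =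
          Si * (t * (ti * s)) - Si * ((t - s * pi * q) * (ti * s)) := by
        simp only [Matrix.sub_mul, Matrix.mul_sub, Matrix.mul_assoc]; abel
      rw [this, hti.cancel_left, hS.cancel_left']
    rw [h2] at h1
    have h3 : Si * (s * pi) * (p - q * ti * s) = ti * s := by rw [h1]; abel
    have h4 : Si * (s * pi) * (p - q * ti * s) * Ti = Si * (s * pi) := hT.cancel_right _
    rw [← h4, h3, Matrix.mul_assoc]
  have l : x * pi * v + (x' - x * pi * q) * Si * (w - s * pi * v) =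
      x * pi * v + x' * (Si * w) - x' * ((Si * (s * pi)) * v) - x * ((pi * (q * Si)) * w) +
        x * (pi * (q * ((Si * (s * pi)) * v))) := by
    simp only [Matrix.sub_mul, Matrix.mul_sub, Matrix.mul_assoc]; abel
  have r : x' * ti * w + (x - x' * ti * s) * Ti * (v - q * ti * w) =
      x' * ti * w + x * (Ti * v) - x * ((Ti * (q * ti)) * w) - x' * ((ti * (s * Ti)) * v) +
        x' * (ti * (s * ((Ti * (q * ti)) * w))) := by
    simp only [Matrix.sub_mul, Matrix.mul_sub, Matrix.mul_assoc]; abel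
  rw [l, r, ← e1, ← e2]
  have f1 : x' * (Si * w) = x' * ti * w + x' * (ti * (s * ((pi * (q * Si)) * w))) := by
    rw [e1]
    conv_lhs => rw [hSi]
    simp only [Matrix.add_mul, Matrix.mul_add, Matrix.mul_assoc]
  have f2 : x * (Ti * v) = x * pi * v + x * (pi * (q * ((Si * (s * pi)) * v))) := by
    conv_lhs => rw [hTi]
    simp only [Matrix.add_mul, Matrix.mul_add, Matrix.mul_assoc]
  rw [f1, f2]
  abel

/-- **The exchange identity.** -/
theorem uu_exchangeB {Si : Matrix m' m' D} {Ti : Matrix m m D} (hp : p + pᴴ = v * vᴴ)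
    (ht : t + tᴴ = w * wᴴ) (hq : q + sᴴ = v * wᴴ) (hpi : Inv2 p pi) (hti : Inv2 t ti)
    (hS : Inv2 (t - s * pi * q) Si) (hT : Inv2 (p - q * ti * s) Ti) :
    uu v pi * uu (w - s * pi * v) Si = uu w ti * uu (v - q * ti * w) Ti := by
  have hq' : s + qᴴ = w * vᴴ := by
    have := congrArg conjTranspose hq
    simp only [conjTranspose_add, conjTranspose_mul, conjTranspose_conjTranspose] at this
    rw [← this, add_comm]
  rw [uu_pair hp hq hpi, uu_pair ht hq' hti,
    schur_eq hpi hti hS hT vᴴ wᴴ v w]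

end exch

end Vale.Agent.P011.H95.Odd

namespace Vale.Agent.P011.H95.Odd

section verbatim

variable {D : Type*} [Ring D] [StarRing D] {ι κ o : Type*} [Fintype ι] [DecidableEq ι]
  [Fintype κ] [DecidableEq κ] [Fintype o] [DecidableEq o]

theorem uu_unitary {a ai : Matrix ι ι D} {x : Matrix ι o D} (h1 : a * ai = 1) (h2 : ai * a = 1)
    (h : a + aᴴ = x * xᴴ) : uu x ai * (uu x ai)ᴴ = 1 ∧ (uu x ai)ᴴ * uu x ai = 1 :=
  ⟨uu_mul_conj h ⟨h1, h2⟩, conj_mul_uu h ⟨h1, h2⟩⟩

theorem uu_move {r ri a ai z zi : Matrix ι ι D} {y1 y2 : Matrix ι o D} (hr : r * ri = 1)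
    (hr' : ri * r = 1) (ha : a * ai = 1) (ha' : ai * a = 1) (hz : z * zi = 1) (hz' : zi * z = 1)
    (h1 : a + aᴴ = y1 * y1ᴴ) (h2 : a * r + rᴴ * aᴴ = y2 * y2ᴴ)
    (hzd : z = a + rᴴ * aᴴ + y2 * y1ᴴ) :
    uu (rᴴ * y1 + y2) (ri * zi) * uu y1 ai = uu y2 (ri * ai) * uu (y1 + y2) zi := by
  subst hzd
  exact uu_moveB ⟨h1, h2⟩ ⟨hr, hr'⟩ ⟨ha, ha'⟩ ⟨hz, hz'⟩

theorem uu_exchange {v : Matrix ι o D} {w : Matrix κ o D} {p pi Ri : Matrix ι ι D}
    {t ti Si : Matrix κ κ D} {q : Matrix ι κ D} {s : Matrix κ ι D} (hp : p + pᴴ = v * vᴴ)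
    (ht : t + tᴴ = w * wᴴ) (hq : q + sᴴ = v * wᴴ) (hpi : p * pi = 1) (hpi' : pi * p = 1)
    (hti : t * ti = 1) (hti' : ti * t = 1) (hS : (t - s * pi * q) * Si = 1)
    (hS' : Si * (t - s * pi * q) = 1) (hR : (p - q * ti * s) * Ri = 1)
    (hR' : Ri * (p - q * ti * s) = 1) :
    uu v pi * uu (w - s * pi * v) Si = uu w ti * uu (v - q * ti * w) Ri :=
  uu_exchangeB hp ht hq ⟨hpi, hpi'⟩ ⟨hti, hti'⟩ ⟨hS, hS'⟩ ⟨hR, hR'⟩

/-- If the complement of `t` in `p` is invertible then so is the complement of `p` in `t`. -/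
theorem schur {p pi Ri : Matrix ι ι D} {t ti : Matrix κ κ D} {q : Matrix ι κ D}
    {s : Matrix κ ι D} (hpi : p * pi = 1) (hpi' : pi * p = 1) (hti : t * ti = 1)
    (hti' : ti * t = 1) (hR : (p - q * ti * s) * Ri = 1) (hR' : Ri * (p - q * ti * s) = 1) :
    (t - s * pi * q) * (ti + ti * s * Ri * q * ti) = 1 ∧
      (ti + ti * s * Ri * q * ti) * (t - s * pi * q) = 1 := by
  have h := inv2_schur (p := t) (t := p) (q := s) (s := q) ⟨hti, hti'⟩ ⟨hpi, hpi'⟩ ⟨hR, hR'⟩
  exact ⟨h.mul, h.inv⟩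

end verbatim

end Vale.Agent.P011.H95.Odd
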