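import Vale.Agent.P011.H439.Moves
import Vale.Agent.P011.H95.Odd.Exch

/-!
**The exchange: propagation of the base point and continuity.**
-/

open Matrix Polynomial Filter Topology
open Vale.Agent.P011.H439 Vale.Agent.P011.H341.Odd

set_option linter.unusedSectionVars false

namespace Vale.Agent.P011.H95.Odd

section base

variable {K D E : Type*} [Field K] [StarRing K] [DivisionRing D] [StarRing D] [Algebra K D]
  [StarModule K D] [TopologicalSpace D] [AddCommGroup E] {m b j : ℕ}

/-- The multiplier of the exchange. -/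
noncomputable def exg (c' : Fin (j + 1) → K) (r : Sq D b) : Sq D b :=
  aeval rᴴ (Pc (sc c')) * Ring.inverse (aeval rᴴ (Pc c'))

theorem exv_eq (c' : Fin (j + 1) → K) (r : Sq D b) (v2 : Col D b) :
    exv c' r v2 = exg c' r * v2 := by
  rw [exv, exg, Matrix.mul_assoc]

theorem aeval_comm (r : Sq D b) (f : K[X]) : aeval r f * r = r * aeval r f := by
  have := congrArg (aeval r) (mul_comm f X)
  rwa [map_mul, map_mul, aeval_X] at this

theorem inverse_comm {A B : Sq D b} (hA : IsUnit A) (h : A * B = B * A) :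
    Ring.inverse A * B = B * Ring.inverse A := by
  have h1 := Ring.mul_inverse_cancel _ hA
  have h2 := Ring.inverse_mul_cancel _ hA
  calc Ring.inverse A * B = Ring.inverse A * (B * (A * Ring.inverse A)) := by
        rw [h1, Matrix.mul_one]
    _ = Ring.inverse A * (B * A) * Ring.inverse A := by simp only [Matrix.mul_assoc]
    _ = (Ring.inverse A * A) * B * Ring.inverse A := by
        rw [← h]; simp only [Matrix.mul_assoc]
    _ = B * Ring.inverse A := by rw [h2, Matrix.one_mul]

theorem exg_comm {c' : Fin (j + 1) → K} {r : Sq D b} (hu : IsUnit (aeval rᴴ (Pc c'))) :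
    exg c' r * rᴴ = rᴴ * exg c' r := by
  rw [exg, Matrix.mul_assoc, inverse_comm hu (aeval_comm _ _), ← Matrix.mul_assoc, aeval_comm,
    Matrix.mul_assoc]

theorem exg_unit {c' : Fin (j + 1) → K} {r : Sq D b} (hu : IsUnit (aeval rᴴ (Pc c')))
    (hu' : IsUnit (aeval rᴴ (Pc (sc c')))) : IsUnit (exg c' r) := by
  have h1 := Ring.mul_inverse_cancel _ hu
  have h2 := Ring.inverse_mul_cancel _ hu
  exact hu'.mul ⟨⟨_, _, h2, h1⟩, rfl⟩

/-- **The base point is propagated, whole column pairs.** -/
theorem dm_exg {W : Set D} (ch : D → E) {c : Fin m → K} {r : Sq D b} {v1 v2 : Col D b}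
    {c' : Fin (j + 1) → K} (h : Dm W c r v1 v2) (hu : IsUnit (aeval rᴴ (Pc c')))
    (hu' : IsUnit (aeval rᴴ (Pc (sc c')))) :
    Dm W c r (exg c' r * v1) (exv c' r v2) ∧
      FF ch c r (exg c' r * v1) (exv c' r v2) = FF ch c r v1 v2 := by
  rw [exv_eq]
  exact h.mul_left (exg_unit hu hu') (exg_comm hu)

/-- **The base point is propagated.** -/
theorem dm_exv0 {W : Set D} {c : Fin m → K} {r : Sq D b} {w0 : Col D b} {c' : Fin (j + 1) → K}
    (h : Dm W c r 0 w0) (hu : IsUnit (aeval rᴴ (Pc c')))
    (hu' : IsUnit (aeval rᴴ (Pc (sc c')))) : Dm W c r 0 (exv c' r w0) := by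
  have := (dm_exg (fun _ => (0 : ℤ)) h hu hu').1
  rwa [Matrix.mul_zero] at this

theorem exw1_zero (c : Fin m → K) (c' : Fin (j + 1) → K) (r : Sq D b) (w0 : Col D b) :
    exw1 c c' r 0 w0 = 0 := by
  rw [exw1, Matrix.mul_zero]

/-- **The template base point.** -/
theorem dm_template {W : Set D} {ch : D → E} (hc : Chr K W ch) {c : Fin m → K} {r : Sq D b}
    {w0 : Col D b} {c' : Fin (j + 1) → K} (h : Dm W c r 0 w0)
    (hu : IsUnit (aeval rᴴ (Pc c'))) (hu' : IsUnit (aeval rᴴ (Pc (sc c'))))
    (hcop : IsCoprime (Pc c') (Pc (sc c'))) :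
    Dm W c' (tD D c') 0 (exw2 c c' r 0 w0) := by
  have := (exchange hc h (dm_exv0 h hu hu') hu hcop).1
  rwa [exw1_zero] at this

end base

section cont

variable {K D : Type*} [Field K] [StarRing K] [DivisionRing D] [StarRing D] [Algebra K D]
  [StarModule K D] [TopologicalSpace K] [IsTopologicalRing K] [ContinuousStar K]
  [TopologicalSpace D] [IsTopologicalRing D] [ContinuousInv₀ D] [ContinuousStar D] [T1Space D]
  {m b j : ℕ} {X : Type*} [TopologicalSpace X] {x : X}

theorem cSmul (hcont : Continuous (algebraMap K D)) {p q : Type*} {c : X → K}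
    {M : X → Matrix p q D} (hc : ContinuousAt c x) (hM : ContinuousAt M x) :
    ContinuousAt (fun y => c y • M y) x := by
  refine continuousAt_pi.2 fun i => continuousAt_pi.2 fun k => ?_
  have h1 : ContinuousAt (fun y => M y i k) x :=
    continuousAt_pi.1 (continuousAt_pi.1 hM i) k
  have h2 : ContinuousAt (fun y => algebraMap K D (c y)) x :=
    ContinuousAt.comp (f := c) hcont.continuousAt hc
  have h3 : (fun y => (c y • M y) i k) = fun y => algebraMap K D (c y) * M y i k := by
    funext y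
    rw [Matrix.smul_apply, Algebra.smul_def]
  rw [h3]
  exact h2.mul h1

theorem cConj {p q : Type*} {M : X → Matrix p q D} (hM : ContinuousAt M x) :
    ContinuousAt (fun y => (M y)ᴴ) x := by
  refine continuousAt_pi.2 fun i => continuousAt_pi.2 fun k => ?_
  exact (continuousAt_pi.1 (continuousAt_pi.1 hM k) i).star

theorem cAdd {p q : Type*} {M N : X → Matrix p q D} (hM : ContinuousAt M x)
    (hN : ContinuousAt N x) : ContinuousAt (fun y => M y + N y) x := hM.add hN

theorem cSub {p q : Type*} {M N : X → Matrix p q D} (hM : ContinuousAt M x)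
    (hN : ContinuousAt N x) : ContinuousAt (fun y => M y - N y) x := hM.sub hN

theorem cPow {M : X → Sq D b} (hM : ContinuousAt M x) (k : ℕ) :
    ContinuousAt (fun y => M y ^ k) x := hM.pow k

theorem cSum {ι : Type*} (s : Finset ι) {p q : Type*} {M : ι → X → Matrix p q D}
    (hM : ∀ i ∈ s, ContinuousAt (M i) x) : ContinuousAt (fun y => ∑ i ∈ s, M i y) x := by
  classical
  induction s using Finset.induction_on with
  | empty => simpa using continuousAt_const
  | insert a s ha ih =>
    simp only [Finset.sum_insert ha]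
    exact cAdd (hM a (Finset.mem_insert_self a s))
      (ih fun i hi => hM i (Finset.mem_insert_of_mem hi))

theorem cInv {M : X → Sq D b} (hM : ContinuousAt M x) (hu : IsUnit (M x)) :
    ContinuousAt (fun y => Ring.inverse (M y)) x :=
  ContinuousAt.comp (f := M) (continuousAt_inverse hu) hM

theorem cCoef {c : X → Fin m → K} (hc : ContinuousAt c x) (i : Fin m) :
    ContinuousAt (fun y => c y i) x := continuousAt_pi.1 hc i

theorem cSc {c : X → Fin m → K} (hc : ContinuousAt c x) :
    ContinuousAt (fun y => sc (c y)) x :=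
  continuousAt_pi.2 fun i => (cCoef hc i).star

theorem cAeval (hcont : Continuous (algebraMap K D)) {c : X → Fin m → K} {M : X → Sq D b}
    (hc : ContinuousAt c x) (hM : ContinuousAt M x) :
    ContinuousAt (fun y => aeval (M y) (Pc (c y))) x := by
  simp only [aeval_Pc]
  exact cAdd (cPow hM m) (cSum _ fun i _ => cSmul hcont (cCoef hc i) (cPow hM i))

theorem cSylT {p q : ℕ} {ρ : X → Sq D p} {Z : X → Matrix (Fin p) (Fin q) D} {t : X → Sq D q}
    (hρ : ContinuousAt ρ x) (hZ : ContinuousAt Z x) (ht : ContinuousAt t x) (k : ℕ) :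
    ContinuousAt (fun y => sylT k (ρ y) (Z y) (t y)) x :=
  cSum _ fun i _ => cmul (cmul (cPow hρ _) hZ) (cPow ht i)

theorem cSyl (hcont : Continuous (algebraMap K D)) {p q : ℕ} {c : X → Fin m → K}
    {ρ : X → Sq D p} {Z : X → Matrix (Fin p) (Fin q) D} {t : X → Sq D q}
    (hc : ContinuousAt c x) (hρ : ContinuousAt ρ x) (hZ : ContinuousAt Z x)
    (ht : ContinuousAt t x) (hu : IsUnit (aeval (t x) (Pc (c x)))) :
    ContinuousAt (fun y => syl (c y) (ρ y) (Z y) (t y)) x :=
  cmul (cAdd (cSylT hρ hZ ht m)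
    (cSum _ fun i _ => cSmul hcont (cCoef hc i) (cSylT hρ hZ ht _)))
    (cInv (cAeval hcont hc ht) hu)

/-- The solution is continuous in all arguments. -/
theorem cAa (hcont : Continuous (algebraMap K D)) {c : X → Fin m → K} {r : X → Sq D b}
    {w1 w2 : X → Col D b} (hc : ContinuousAt c x) (hr : ContinuousAt r x)
    (h1 : ContinuousAt w1 x) (h2 : ContinuousAt w2 x)
    (hu : IsUnit (aeval (r x) (Pc (sc (c x))))) :
    ContinuousAt (fun y => aa (c y) (r y) (w1 y) (w2 y)) x :=
  cSyl hcont (cSc hc) (cConj hr)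
    (cSub (cmul h2 (cConj h2)) (cmul (cConj hr) (cmul h1 (cConj h1)))) hr hu

variable {c : X → Fin m → K} {c' : X → Fin (j + 1) → K} {r : X → Sq D b}
  {v1 v2 : X → Col D b}

theorem cExg (hcont : Continuous (algebraMap K D)) (hc' : ContinuousAt c' x)
    (hr : ContinuousAt r x) (hu : IsUnit (aeval (r x)ᴴ (Pc (c' x)))) :
    ContinuousAt (fun y => exg (c' y) (r y)) x :=
  cmul (cAeval hcont (cSc hc') (cConj hr)) (cInv (cAeval hcont hc' (cConj hr)) hu)

/-- The new second column is continuous in all arguments. -/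
theorem cExv (hcont : Continuous (algebraMap K D)) (hc' : ContinuousAt c' x)
    (hr : ContinuousAt r x) (h2 : ContinuousAt v2 x)
    (hu : IsUnit (aeval (r x)ᴴ (Pc (c' x)))) :
    ContinuousAt (fun y => exv (c' y) (r y) (v2 y)) x :=
  cmul (cAeval hcont (cSc hc') (cConj hr))
    (cmul (cInv (cAeval hcont hc' (cConj hr)) hu) h2)

theorem cExq (hcont : Continuous (algebraMap K D)) (hc' : ContinuousAt c' x)
    (hr : ContinuousAt r x) (h2 : ContinuousAt v2 x)
    (hu : IsUnit (aeval (r x)ᴴ (Pc (c' x)))) :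
    ContinuousAt (fun y => exq (c' y) (r y) (v2 y)) x := by
  refine continuousAt_pi.2 fun i => continuousAt_pi.2 fun k => ?_
  have h3 : ContinuousAt (fun y => (r y)ᴴ ^ (k : ℕ) *
      (Ring.inverse (aeval (r y)ᴴ (Pc (c' y))) * v2 y)) x :=
    cmul (cPow (cConj hr) k) (cmul (cInv (cAeval hcont hc' (cConj hr)) hu) h2)
  exact (continuousAt_pi.1 (continuousAt_pi.1 h3 i) 0).neg

/-- The template columns are continuous in all arguments. -/
theorem cExw1 (hcont : Continuous (algebraMap K D)) (hc : ContinuousAt c x)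
    (hc' : ContinuousAt c' x) (hr : ContinuousAt r x) (h1 : ContinuousAt v1 x)
    (h2 : ContinuousAt v2 x) (hcop : IsUnit (aeval (r x) (Pc (sc (c x)))))
    (ha : IsUnit (aa (c x) (r x) (v1 x) (v2 x))) (hu : IsUnit (aeval (r x)ᴴ (Pc (c' x)))) :
    ContinuousAt (fun y => exw1 (c y) (c' y) (r y) (v1 y) (v2 y)) x :=
  cmul (cmul (cConj (cExq hcont hc' hr h2 hu)) (cInv (cAa hcont hc hr h1 h2 hcop) ha)) h1

theorem cExw2 (hcont : Continuous (algebraMap K D)) (hc : ContinuousAt c x)
    (hc' : ContinuousAt c' x) (hr : ContinuousAt r x) (h1 : ContinuousAt v1 x)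
    (h2 : ContinuousAt v2 x) (hcop : IsUnit (aeval (r x) (Pc (sc (c x)))))
    (ha : IsUnit (aa (c x) (r x) (v1 x) (v2 x))) (hu : IsUnit (aeval (r x)ᴴ (Pc (c' x)))) :
    ContinuousAt (fun y => exw2 (c y) (c' y) (r y) (v1 y) (v2 y)) x :=
  cAdd continuousAt_const
    (cmul (cmul (cConj (cExq hcont hc' hr h2 hu)) (cInv (cAa hcont hc hr h1 h2 hcop) ha)) h2)

/-- The companion matrix is continuous. -/
theorem cTD (hcont : Continuous (algebraMap K D)) (hc' : ContinuousAt c' x) :
    ContinuousAt (fun y => tD D (c' y)) x := by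
  refine continuousAt_pi.2 fun i => continuousAt_pi.2 fun k => ?_
  refine ContinuousAt.comp (f := fun y => H275.Cmp.cmp (c' y) i k) hcont.continuousAt ?_
  by_cases hk : k = Fin.last j
  · have : (fun y => H275.Cmp.cmp (c' y) i k) = fun y => -(c' y i) := by
      funext y; simp [H275.Cmp.cmp, hk]
    rw [this]
    exact (cCoef hc' i).neg
  · have : (fun y => H275.Cmp.cmp (c' y) i k) =
        fun _ => if (i : ℕ) = (k : ℕ) + 1 then (1 : K) else 0 := by
      funext y; simp [H275.Cmp.cmp, hk]
    rw [this]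
    exact continuousAt_const

end cont

end Vale.Agent.P011.H95.Odd
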