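import Vale.Agent.P011.H95.Odd.LCx
import Vale.Agent.P011.H158.Psi.Base3

/-!
**Local constancy near a central base point.**
-/

open Matrix Polynomial Filter Topology Module
open Vale.Agent.P011.H439

set_option linter.unusedSectionVars false

namespace Vale.Agent.P011.H95.Odd

variable {K D E : Type*} [Field K] [StarRing K] [TopologicalSpace K] [IsTopologicalDivisionRing K]
  [ContinuousStar K] [T1Space K] [DivisionRing D] [StarRing D] [Algebra K D]
  [StarModule K D] [TopologicalSpace D] [IsTopologicalDivisionRing D] [ContinuousStar D]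
  [T1Space D] [NonarchimedeanAddGroup D] [FiniteDimensional K D] [AddCommGroup E] {W : Set D}
  {ch : D → E} {κ : K}

/-- The hypothesis of the bridge, for every central base point. -/
theorem lc_central (hcont : Continuous (algebraMap K D)) (hspan : Spn D) (hK : SmK K)
    (hinf : {x : K | star x = x}.Infinite) (hκ : star κ ≠ κ) (hc : Chr K W ch) :
    ∀ᶠ x : ((Fin (finrank K D) → K) × Sq D 1) × Col D 1 × Col D 1 × Col D 1 × Col D 1 in
      𝓝 ((H158.Psi.cf K (algebraMap K D κ), H158.Psi.i1 (algebraMap K D κ)), 0,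
        H158.Psi.i1 1, 0, H158.Psi.i1 1),
      aeval x.1.2 (Pc x.1.1) = 0 →
        FF ch x.1.1 x.1.2 x.2.1 x.2.2.1 = FF ch x.1.1 x.1.2 x.2.2.2.1 x.2.2.2.2 := by
  have h : LCp K W ch (finrank K D) := by
    obtain ⟨m, hm⟩ : ∃ m, finrank K D = m + 1 :=
      ⟨finrank K D - 1, by have := finrank_pos (R := K) (M := D); omega⟩
    rw [hm]
    exact lc_all hcont hspan hK ⟨κ, hκ⟩ hinf hc m
  exact h 1 _ _ _ (H158.Psi.cop_base hκ) (H158.Psi.dm_base hκ hc)

/-- **The two-point functional**, no open hypothesis. -/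
theorem exists_C (hcont : Continuous (algebraMap K D)) (hspan : Spn D) (hK : SmK K)
    (hinf : {x : K | star x = x}.Infinite) (hκ : star κ ≠ κ) (hc : Chr K W ch)
    {ι : Type*} [Fintype ι] [DecidableEq ι] (B : Basis ι K D)
    (hB : ∀ i, Continuous fun x : D => B.repr x i) :
    ∃ C : D → E,
      (∀ᶠ x : D × D × D in 𝓝 (algebraMap K D κ, 0, 1), ∀ a : D, a ≠ 0 →
        a + star a = x.2.1 * star x.2.1 → a * x.1 + star (a * x.1) = x.2.2 * star x.2.2 →
        ch (1 - star x.2.2 * (a * x.1)⁻¹ * x.2.2) - ch (1 - star x.2.1 * a⁻¹ * x.2.1) = C x.1) ∧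
      (∀ᶠ r in 𝓝 (algebraMap K D κ), ∃ a : D, a ≠ 0 ∧ a + star a = 0 ∧
        a * r + star (a * r) = 1) :=
  H158.Psi.lcd_of_lc hκ hc hcont B hB (lc_central hcont hspan hK hinf hκ hc)

end Vale.Agent.P011.H95.Odd
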